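import Vale.Agent.Lib.P040.Chi

/-!
A small verified checker for refutation trees over seven point chirotopes: the sign
assignments are two bit masks; leaves cite a violated exchange relation or a forbidden tuple.
-/

namespace Vale.Agent.P040

/-- The bit position of a triple of indices below seven. -/
def code (i j k : ℕ) : ℕ := i * 49 + j * 7 + k

/-- Add the three even permutations to the mask of true triples. -/
def setT (T i j k : ℕ) : ℕ := T ||| 2 ^ code i j k ||| 2 ^ code j k i ||| 2 ^ code k i j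

/-- Add the three odd permutations to the mask of false triples. -/
def setF (F i j k : ℕ) : ℕ := F ||| 2 ^ code j i k ||| 2 ^ code i k j ||| 2 ^ code k j i

/-- The indices are below seven and distinct. -/
def valid3 (i j k : ℕ) : Bool :=
  decide (i < 7) && decide (j < 7) && decide (k < 7) &&
    !(i == j) && !(j == k) && !(i == k)

/-- The value of a triple is recorded in one of the two masks. -/
def kn (T F i j k : ℕ) : Bool := T.testBit (code i j k) || F.testBit (code i j k)

/-- A recorded value. -/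
def vl (T i j k : ℕ) : Bool := T.testBit (code i j k)

/-- Leaf check: all six triples of an exchange relation are recorded and violate it. -/
def checkGP (T F a b c d e : ℕ) : Bool :=
  decide (a < 7) && decide (b < 7) && decide (c < 7) && decide (d < 7) && decide (e < 7) &&
  !(a == b) && !(a == c) && !(a == d) && !(a == e) && !(b == c) && !(b == d) && !(b == e) &&
  !(c == d) && !(c == e) && !(d == e) &&
  kn T F a b c && kn T F a d e && kn T F a b d && kn T F a c e && kn T F a b e && kn T F a c d &&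
  (xor (vl T a b c) (vl T a d e) == (!xor (vl T a b d) (vl T a c e))) &&
  ((!xor (vl T a b d) (vl T a c e)) == xor (vl T a b e) (vl T a c d))

/-- The tuples of a side of the cycle `0123` with a pair of the blue points `4,5,6`. -/
def allowedNC (u v x y : ℕ) : Bool :=
  ((u == 0 && v == 1) || (u == 1 && v == 2) || (u == 2 && v == 3) || (u == 3 && v == 0)) &&
  ((x == 4 && y == 5) || (x == 4 && y == 6) || (x == 5 && y == 6))

/-- Leaf check: a tuple that is recorded to be of crossing type. -/
def checkNC (T F u v x y : ℕ) : Bool :=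
  allowedNC u v x y &&
  kn T F u v x && kn T F u v y && kn T F x y u && kn T F x y v &&
  (vl T u v x == vl T u v y) && (vl T x y u == vl T x y v)

/-- The checker on a bit string: returns the end position of the tree. -/
def run (data : ℕ) : ℕ → ℕ → ℕ → ℕ → Option ℕ
  | 0, _, _, _ => none
  | f + 1, T, F, p =>
    let op := (data >>> p) % 4
    if op == 0 then
      let i := (data >>> (p + 2)) % 8
      let j := (data >>> (p + 5)) % 8
      let k := (data >>> (p + 8)) % 8
      if valid3 i j k then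
        match run data f (setT T i j k) (setF F i j k) (p + 11) with
        | none => none
        | some q => run data f (setT T j i k) (setF F j i k) q
      else none
    else if op == 1 then
      if checkGP T F ((data >>> (p + 2)) % 8) ((data >>> (p + 5)) % 8) ((data >>> (p + 8)) % 8)
          ((data >>> (p + 11)) % 8) ((data >>> (p + 14)) % 8) then some (p + 17) else none
    else if op == 2 then
      if checkNC T F ((data >>> (p + 2)) % 8) ((data >>> (p + 5)) % 8) ((data >>> (p + 8)) % 8)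
          ((data >>> (p + 11)) % 8) then some (p + 14) else none
    else none

/-- The chirotope laws on indices below seven. -/
structure IsChi7 (χ : ℕ → ℕ → ℕ → Bool) : Prop where
  cyc : ∀ i j k, i < 7 → j < 7 → k < 7 → i ≠ j → j ≠ k → i ≠ k → χ i j k = χ j k i
  anti : ∀ i j k, i < 7 → j < 7 → k < 7 → i ≠ j → j ≠ k → i ≠ k → χ j i k = !χ i j k
  gp : ∀ a b c d e, a < 7 → b < 7 → c < 7 → d < 7 → e < 7 → [a, b, c, d, e].Nodup →
    ¬ (xor (χ a b c) (χ a d e) = (!xor (χ a b d) (χ a c e)) ∧
        (!xor (χ a b d) (χ a c e)) = xor (χ a b e) (χ a c d))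

/-- The masks record true values of the chirotope. -/
def Cons (χ : ℕ → ℕ → ℕ → Bool) (T F : ℕ) : Prop :=
  ∀ i j k, i < 7 → j < 7 → k < 7 →
    (T.testBit (code i j k) = true → χ i j k = true) ∧
    (F.testBit (code i j k) = true → χ i j k = false)

theorem code_inj {i j k a b c : ℕ} (hi : i < 7) (hj : j < 7) (hk : k < 7) (ha : a < 7) (hb : b < 7)
    (hc : c < 7) (h : code a b c = code i j k) : a = i ∧ b = j ∧ c = k := by
  unfold code at h
  omega

theorem testBit_or_pow (T n c : ℕ) :
    (T ||| 2 ^ n).testBit c = true ↔ T.testBit c = true ∨ n = c := by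
  rw [Nat.testBit_or]
  simp [Nat.testBit_two_pow]

theorem Cons.addT {χ : ℕ → ℕ → ℕ → Bool} {T F : ℕ} (h : Cons χ T F) {a b c : ℕ}
    (ha : a < 7) (hb : b < 7) (hc : c < 7) (hv : χ a b c = true) :
    Cons χ (T ||| 2 ^ code a b c) F := by
  intro i j k hi hj hk
  refine ⟨?_, (h i j k hi hj hk).2⟩
  intro hbit
  rcases (testBit_or_pow _ _ _).1 hbit with h1 | h1
  · exact (h i j k hi hj hk).1 h1
  · obtain ⟨rfl, rfl, rfl⟩ := code_inj hi hj hk ha hb hc h1
    exact hv

theorem Cons.addF {χ : ℕ → ℕ → ℕ → Bool} {T F : ℕ} (h : Cons χ T F) {a b c : ℕ}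
    (ha : a < 7) (hb : b < 7) (hc : c < 7) (hv : χ a b c = false) :
    Cons χ T (F ||| 2 ^ code a b c) := by
  intro i j k hi hj hk
  refine ⟨(h i j k hi hj hk).1, ?_⟩
  intro hbit
  rcases (testBit_or_pow _ _ _).1 hbit with h1 | h1
  · exact (h i j k hi hj hk).2 h1
  · obtain ⟨rfl, rfl, rfl⟩ := code_inj hi hj hk ha hb hc h1
    exact hv

theorem Cons.set {χ : ℕ → ℕ → ℕ → Bool} (hχ : IsChi7 χ) {T F : ℕ} (h : Cons χ T F) {i j k : ℕ}
    (hi : i < 7) (hj : j < 7) (hk : k < 7) (hij : i ≠ j) (hjk : j ≠ k) (hik : i ≠ k)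
    (hv : χ i j k = true) : Cons χ (setT T i j k) (setF F i j k) := by
  have c1 : χ j k i = true := by rw [← hχ.cyc i j k hi hj hk hij hjk hik]; exact hv
  have c2 : χ k i j = true := by rw [← hχ.cyc j k i hj hk hi hjk hik.symm hij.symm]; exact c1
  have a1 : χ j i k = false := by rw [hχ.anti i j k hi hj hk hij hjk hik, hv]; rfl
  have a2 : χ i k j = false := by
    rw [hχ.anti k i j hk hi hj hik.symm hij hjk.symm, c2]; rfl
  have a3 : χ k j i = false := by
    rw [hχ.anti j k i hj hk hi hjk hik.symm hij.symm, c1]; rfl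
  unfold setT setF
  exact (((((h.addT hi hj hk hv).addT hj hk hi c1).addT hk hi hj c2).addF hj hi hk a1).addF
    hi hk hj a2).addF hk hj hi a3

theorem Cons.val {χ : ℕ → ℕ → ℕ → Bool} {T F : ℕ} (h : Cons χ T F) {i j k : ℕ}
    (hi : i < 7) (hj : j < 7) (hk : k < 7) (hk' : kn T F i j k = true) :
    χ i j k = vl T i j k := by
  unfold kn at hk'
  unfold vl
  cases hT : T.testBit (code i j k) with
  | true => exact (h i j k hi hj hk).1 hT
  | false =>
    rw [hT] at hk'
    simp only [Bool.false_or] at hk'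
    exact (h i j k hi hj hk).2 hk'

theorem checkGP_false {χ : ℕ → ℕ → ℕ → Bool} (hχ : IsChi7 χ) {T F : ℕ} (h : Cons χ T F)
    {a b c d e : ℕ} (hc : checkGP T F a b c d e = true) : False := by
  unfold checkGP at hc
  simp only [Bool.and_eq_true, decide_eq_true_eq, beq_iff_eq, Bool.not_eq_true', beq_eq_false_iff_ne,
    ne_eq] at hc
  obtain ⟨⟨⟨⟨⟨⟨⟨⟨⟨⟨⟨⟨⟨⟨⟨⟨⟨⟨⟨⟨⟨⟨ha, hb⟩, hc'⟩, hd⟩, he⟩, ab⟩, ac⟩, ad⟩, ae⟩, bc⟩, bd⟩, be⟩, cd⟩, ce⟩,
    de⟩, k1⟩, k2⟩, k3⟩, k4⟩, k5⟩, k6⟩, v1⟩, v2⟩ := hc
  have nd : [a, b, c, d, e].Nodup := by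
    simp only [List.nodup_cons, List.mem_cons, List.not_mem_nil, or_false, not_or,
      List.nodup_nil, not_false_eq_true, and_true]
    exact ⟨⟨ab, ac, ad, ae⟩, ⟨bc, bd, be⟩, ⟨cd, ce⟩, de⟩
  apply hχ.gp a b c d e ha hb hc' hd he nd
  rw [h.val ha hb hc' k1, h.val ha hd he k2, h.val ha hb hd k3, h.val ha hc' he k4,
    h.val ha hb he k5, h.val ha hc' hd k6]
  exact ⟨v1, v2⟩

theorem allowed_lt {u v x y : ℕ} (h : allowedNC u v x y = true) :
    u < 7 ∧ v < 7 ∧ x < 7 ∧ y < 7 := by
  unfold allowedNC at h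
  simp only [Bool.and_eq_true, Bool.or_eq_true, beq_iff_eq] at h
  omega

theorem checkNC_true {χ : ℕ → ℕ → ℕ → Bool} {T F : ℕ} (h : Cons χ T F)
    {u v x y : ℕ} (hc : checkNC T F u v x y = true) :
    allowedNC u v x y = true ∧ crossBit χ u v x y = true := by
  unfold checkNC at hc
  simp only [Bool.and_eq_true, beq_iff_eq] at hc
  obtain ⟨⟨⟨⟨⟨⟨h0, k1⟩, k2⟩, k3⟩, k4⟩, v1⟩, v2⟩ := hc
  obtain ⟨hu, hv, hx, hy⟩ := allowed_lt h0
  refine ⟨h0, ?_⟩
  unfold crossBit
  rw [h.val hu hv hx k1, h.val hu hv hy k2, h.val hx hy hu k3, h.val hx hy hv k4, v1, v2]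
  simp

/-- Soundness of the checker: under the laws and with no forbidden tuple, no tree is accepted. -/
theorem run_sound {χ : ℕ → ℕ → ℕ → Bool} (hχ : IsChi7 χ)
    (hNC : ∀ u v x y, allowedNC u v x y = true → crossBit χ u v x y = false) (data : ℕ) :
    ∀ (f T F p q : ℕ), Cons χ T F → run data f T F p = some q → False := by
  intro f
  induction f with
  | zero =>
    intro T F p q _ h
    simp [run] at h
  | succ f ih =>
    intro T F p q hC h
    simp only [run] at h
    split_ifs at h with h1 h2 h3 h4 h5 h6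
    · -- split node
      rw [valid3, Bool.and_eq_true, Bool.and_eq_true, Bool.and_eq_true, Bool.and_eq_true,
        Bool.and_eq_true] at h2
      obtain ⟨⟨⟨⟨⟨hi, hj⟩, hk⟩, hij⟩, hjk⟩, hik⟩ := h2
      simp only [decide_eq_true_eq, Bool.not_eq_true', beq_eq_false_iff_ne, ne_eq] at hi hj hk hij hjk hik
      cases hrun : run data f (setT T _ _ _) (setF F _ _ _) (p + 11) with
      | none =>
        rw [hrun] at h
        simp at h
      | some r =>
        rw [hrun] at h
        cases hv : χ ((data >>> (p + 2)) % 8) ((data >>> (p + 5)) % 8) ((data >>> (p + 8)) % 8) with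
        | true =>
          exact ih _ _ _ _ (hC.set hχ hi hj hk hij hjk hik hv) hrun
        | false =>
          have hv' : χ ((data >>> (p + 5)) % 8) ((data >>> (p + 2)) % 8) ((data >>> (p + 8)) % 8)
              = true := by
            rw [hχ.anti _ _ _ hi hj hk hij hjk hik, hv]; rfl
          exact ih _ _ _ _ (hC.set hχ hj hi hk (Ne.symm hij) hik hjk hv') h
    · exact checkGP_false hχ hC h4
    · obtain ⟨h7, h8⟩ := checkNC_true hC h6
      rw [hNC _ _ _ _ h7] at h8
      exact Bool.noConfusion h8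

end Vale.Agent.P040
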