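import Vale.Agent.Lib.P040.Defs

/-!
Orientation signs of points of the plane, as a Boolean function satisfying the three laws of a
uniform rank three chirotope.
-/

namespace Vale.Agent.P040

/-- The three laws of a uniform rank three chirotope (acyclicity is not needed). -/
structure IsChi {ι : Type*} (χ : ι → ι → ι → Bool) : Prop where
  cyc : ∀ i j k, i ≠ j → j ≠ k → i ≠ k → χ i j k = χ j k i
  anti : ∀ i j k, i ≠ j → j ≠ k → i ≠ k → χ j i k = !χ i j k
  gp : ∀ a b c d e, [a, b, c, d, e].Nodup →
    ¬ (xor (χ a b c) (χ a d e) = (!xor (χ a b d) (χ a c e)) ∧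
        (!xor (χ a b d) (χ a c e)) = xor (χ a b e) (χ a c d))

/-- Positive orientation of a triple of points. -/
noncomputable def pos (p q r : ℝ × ℝ) : Bool := decide (0 < det3 p q r)

theorem det3_cyc (p q r : ℝ × ℝ) : det3 p q r = det3 q r p := by
  unfold det3; ring

theorem det3_anti (p q r : ℝ × ℝ) : det3 q p r = - det3 p q r := by
  unfold det3; ring

theorem det3_gp (a b c d e : ℝ × ℝ) :
    det3 a b c * det3 a d e + (- (det3 a b d * det3 a c e)) + det3 a b e * det3 a c d = 0 := by
  unfold det3; ring

theorem xor_decide (x y : ℝ) (hx : x ≠ 0) (hy : y ≠ 0) :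
    xor (decide (0 < x)) (decide (0 < y)) = decide (x * y < 0) := by
  rcases lt_or_gt_of_ne hx with h1 | h1 <;> rcases lt_or_gt_of_ne hy with h2 | h2
  · have a1 : ¬ 0 < x := not_lt.2 h1.le
    have a2 : ¬ 0 < y := not_lt.2 h2.le
    have a3 : ¬ x * y < 0 := not_lt.2 (mul_nonneg_of_nonpos_of_nonpos h1.le h2.le)
    simp [a1, a2, a3]
  · have a1 : ¬ 0 < x := not_lt.2 h1.le
    have a3 : x * y < 0 := mul_neg_of_neg_of_pos h1 h2
    simp [a1, h2, a3]
  · have a2 : ¬ 0 < y := not_lt.2 h2.le
    have a3 : x * y < 0 := mul_neg_of_pos_of_neg h1 h2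
    simp [h1, a2, a3]
  · have a3 : ¬ x * y < 0 := not_lt.2 (mul_pos h1 h2).le
    simp [h1, h2, a3]

theorem not_xor_decide (x y : ℝ) (hx : x ≠ 0) (hy : y ≠ 0) :
    (!xor (decide (0 < x)) (decide (0 < y))) = decide (-(x * y) < 0) := by
  rw [xor_decide x y hx hy]
  have hxy : x * y ≠ 0 := mul_ne_zero hx hy
  rcases lt_or_gt_of_ne hxy with h | h
  · have a1 : ¬ -(x * y) < 0 := by linarith
    simp [h, a1]
  · have a1 : ¬ x * y < 0 := by linarith
    have a2 : -(x * y) < 0 := by linarith
    simp [a1, a2]

theorem three_sum (A B C : ℝ) (hA : A ≠ 0) (hB : B ≠ 0) (hC : C ≠ 0) (hs : A + B + C = 0) :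
    ¬ (decide (A < 0) = decide (B < 0) ∧ decide (B < 0) = decide (C < 0)) := by
  rintro ⟨h1, h2⟩
  rcases lt_or_gt_of_ne hA with a | a
  · have b : B < 0 := by
      by_contra hb
      simp [a, hb] at h1
    have c : C < 0 := by
      by_contra hc
      simp [b, hc] at h2
    linarith
  · have a' : ¬ A < 0 := by linarith
    have b : ¬ B < 0 := by
      intro hb
      simp [a', hb] at h1
    have c : ¬ C < 0 := by
      intro hc
      simp [b, hc] at h2
    have b' : 0 < B := lt_of_le_of_ne (not_lt.1 b) hB.symm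
    have c' : 0 < C := lt_of_le_of_ne (not_lt.1 c) hC.symm
    linarith

/-- Orientation signs of a family of points in general position satisfy the chirotope laws. -/
theorem isChi_of_ncl {ι : Type*} (P : ι → ℝ × ℝ) (h : NoThreeCollinear P) :
    IsChi (fun i j k => pos (P i) (P j) (P k)) := by
  refine ⟨?_, ?_, ?_⟩
  · intro i j k _ _ _
    simp only [pos]
    rw [det3_cyc (P i) (P j) (P k)]
  · intro i j k hij hjk hik
    simp only [pos]
    rw [det3_anti (P i) (P j) (P k)]
    have h0 := h i j k hij hjk hik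
    rcases lt_or_gt_of_ne h0 with a | a
    · have a1 : ¬ 0 < det3 (P i) (P j) (P k) := by linarith
      have a2 : 0 < - det3 (P i) (P j) (P k) := by linarith
      simp [a1, a2]
    · have a1 : ¬ 0 < - det3 (P i) (P j) (P k) := by linarith
      simp [a, a1]
  · intro a b c d e hnd
    simp only [List.nodup_cons, List.mem_cons, List.not_mem_nil, or_false, not_or,
      List.nodup_nil, not_false_eq_true, and_true] at hnd
    obtain ⟨⟨ab, ac, ad, ae⟩, ⟨bc, bd, be⟩, ⟨cd, ce⟩, de⟩ := hnd
    have habc := h a b c ab bc ac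
    have hade := h a d e ad de ae
    have habd := h a b d ab bd ad
    have hace := h a c e ac ce ae
    have habe := h a b e ab be ae
    have hacd := h a c d ac cd ad
    simp only [pos]
    rw [xor_decide _ _ habc hade, not_xor_decide _ _ habd hace, xor_decide _ _ habe hacd]
    exact three_sum _ _ _ (mul_ne_zero habc hade) (neg_ne_zero.2 (mul_ne_zero habd hace))
      (mul_ne_zero habe hacd) (det3_gp _ _ _ _ _)

/-- The four point configuration `u,v | x,y`: each line separates neither of the other pair. -/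
def crossBit {ι : Type*} (χ : ι → ι → ι → Bool) (u v x y : ι) : Bool :=
  (χ u v x == χ u v y) && (χ x y u == χ x y v)

/-- Two segments whose endpoints are separated by the opposite lines meet. -/
theorem segments_meet (a c b d : ℝ × ℝ) (h1 : det3 a c b * det3 a c d < 0)
    (h2 : det3 b d a * det3 b d c < 0) :
    (segment ℝ a c ∩ segment ℝ b d).Nonempty := by
  set p := det3 b d a with hp
  set q := det3 b d c with hq
  set r := det3 a c b with hr
  set s := det3 a c d with hs
  have hpq : p - q ≠ 0 := by
    intro h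
    have : p = q := by linarith
    rw [this] at h2
    nlinarith [mul_self_nonneg q]
  have hrs : r - s ≠ 0 := by
    intro h
    have : r = s := by linarith
    rw [this] at h1
    nlinarith [mul_self_nonneg s]
  have ht0 : 0 ≤ p / (p - q) := by
    have : 0 ≤ p * (p - q) := by nlinarith [mul_self_nonneg p]
    rw [div_eq_mul_inv]
    have h3 : p / (p - q) = p * (p - q) / ((p - q) * (p - q)) := by
      field_simp
    rw [← div_eq_mul_inv, h3]
    exact div_nonneg this (mul_self_nonneg _)
  have ht1 : 0 ≤ -q / (p - q) := by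
    have : 0 ≤ -q * (p - q) := by nlinarith [mul_self_nonneg q]
    have h3 : -q / (p - q) = -q * (p - q) / ((p - q) * (p - q)) := by
      field_simp
    rw [h3]
    exact div_nonneg this (mul_self_nonneg _)
  have hu0 : 0 ≤ r / (r - s) := by
    have : 0 ≤ r * (r - s) := by nlinarith [mul_self_nonneg r]
    have h3 : r / (r - s) = r * (r - s) / ((r - s) * (r - s)) := by
      field_simp
    rw [h3]
    exact div_nonneg this (mul_self_nonneg _)
  have hu1 : 0 ≤ -s / (r - s) := by
    have : 0 ≤ -s * (r - s) := by nlinarith [mul_self_nonneg s]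
    have h3 : -s / (r - s) = -s * (r - s) / ((r - s) * (r - s)) := by
      field_simp
    rw [h3]
    exact div_nonneg this (mul_self_nonneg _)
  have ht : -q / (p - q) + p / (p - q) = 1 := by
    field_simp; ring
  have hu : -s / (r - s) + r / (r - s) = 1 := by
    field_simp; ring
  have hrel : r - s = -(p - q) := by
    rw [hp, hq, hr, hs]; unfold det3; ring
  refine ⟨(-q / (p - q)) • a + (p / (p - q)) • c, ⟨_, _, ht1, ht0, ht, rfl⟩, ⟨_, _, hu1, hu0, hu, ?_⟩⟩
  have hrel' : r - s = q - p := by linarith
  rw [hrel']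
  have hpq' : q - p ≠ 0 := by
    intro h; apply hpq; linarith
  ext
  · simp only [Prod.fst_add, Prod.smul_fst, smul_eq_mul]
    rw [hp, hq, hr, hs] at *
    field_simp
    unfold det3 at *
    ring
  · simp only [Prod.snd_add, Prod.smul_snd, smul_eq_mul]
    rw [hp, hq, hr, hs] at *
    field_simp
    unfold det3 at *
    ring

/-- Conversely segments meeting, in general position, are separated. -/
theorem dets_of_meet (a c b d : ℝ × ℝ) (hb : det3 a c b ≠ 0) (hd : det3 a c d ≠ 0)
    (h : (segment ℝ a c ∩ segment ℝ b d).Nonempty) : det3 a c b * det3 a c d < 0 := by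
  obtain ⟨z, ⟨α, β, hα, hβ, hαβ, hz⟩, ⟨γ, δ, hγ, hδ, hγδ, hz'⟩⟩ := h
  have hzero : det3 a c z = 0 := by
    rw [← hz]
    unfold det3
    simp only [Prod.fst_add, Prod.smul_fst, Prod.snd_add, Prod.smul_snd, smul_eq_mul]
    have : β = 1 - α := by linarith
    subst this
    ring
  have haff : γ * det3 a c b + δ * det3 a c d = 0 := by
    rw [← hzero, ← hz']
    unfold det3
    simp only [Prod.fst_add, Prod.smul_fst, Prod.snd_add, Prod.smul_snd, smul_eq_mul]
    have : δ = 1 - γ := by linarith
    subst this
    ring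
  by_contra hcon
  have hnn : 0 ≤ det3 a c b * det3 a c d := not_lt.1 hcon
  have hpos : 0 < det3 a c b * det3 a c d := lt_of_le_of_ne hnn (mul_ne_zero hb hd).symm
  have e1 : γ * (det3 a c b * det3 a c b) + δ * (det3 a c b * det3 a c d) = 0 := by
    have : det3 a c b * (γ * det3 a c b + δ * det3 a c d) = 0 := by rw [haff, mul_zero]
    linarith
  have p1 : 0 < det3 a c b * det3 a c b := mul_self_pos.2 hb
  have g0 : γ = 0 := by
    by_contra hg
    have hg' : 0 < γ := lt_of_le_of_ne hγ (Ne.symm hg)
    have := mul_pos hg' p1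
    have := mul_nonneg hδ hpos.le
    linarith
  have d1 : δ = 1 := by linarith
  rw [g0, d1] at haff
  apply hd
  linarith

end Vale.Agent.P040
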