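import Vale.Agent.Lib.P040.Cross

/-!
Points in convex position admit a cyclic labeling with all increasing triples positively oriented.
-/

namespace Vale.Agent.P040

open Finset

/-- Transitivity of the slope order on the lexicographically positive half plane. -/
theorem slope_trans {u1 u2 v1 v2 w1 w2 : ℝ}
    (hu : 0 < u1 ∨ (u1 = 0 ∧ 0 < u2)) (hv : 0 < v1 ∨ (v1 = 0 ∧ 0 < v2))
    (hw : 0 < w1 ∨ (w1 = 0 ∧ 0 < w2))
    (h1 : 0 < u1 * v2 - u2 * v1) (h2 : 0 < v1 * w2 - v2 * w1) : 0 < u1 * w2 - u2 * w1 := by
  have hw1 : 0 ≤ w1 := by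
    rcases hw with h | ⟨h, _⟩
    · exact h.le
    · exact h.ge
  rcases hv with hv | ⟨hv0, hv2⟩
  · have hu1 : 0 < u1 := by
      rcases hu with h | ⟨h, h'⟩
      · exact h
      · rw [h] at h1
        nlinarith [mul_pos h' hv]
    have hid : v1 * (u1 * w2 - u2 * w1) = u1 * (v1 * w2 - v2 * w1) + w1 * (u1 * v2 - u2 * v1) := by
      ring
    have : 0 < v1 * (u1 * w2 - u2 * w1) := by
      rw [hid]
      have := mul_pos hu1 h2
      have := mul_nonneg hw1 h1.le
      linarith
    exact (pos_iff_pos_of_mul_pos this).1 hv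
  · rw [hv0] at h1 h2
    nlinarith [mul_nonneg hv2.le hw1]

/-- Rank in a strict total order on a finite type. -/
theorem exists_rank {m : ℕ} (r : Fin m → Fin m → Prop)
    (hirr : ∀ x, ¬ r x x) (htri : ∀ x y, x ≠ y → r x y ∨ r y x)
    (htr : ∀ x y z, r x y → r y z → r x z) :
    ∃ e : Fin m ≃ Fin m, ∀ i j, i < j → r (e i) (e j) := by
  classical
  let rk : Fin m → ℕ := fun x => (Finset.univ.filter fun y => r y x).card
  have hrk : ∀ x, rk x < m := by
    intro x
    have h1 : (Finset.univ.filter fun y => r y x).card < (Finset.univ : Finset (Fin m)).card := by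
      apply Finset.card_lt_card
      refine ⟨Finset.subset_univ _, ?_⟩
      intro h
      have := h (Finset.mem_univ x)
      simp only [Finset.mem_filter, Finset.mem_univ, true_and] at this
      exact hirr x this
    simpa using h1
  have hlt : ∀ x y, r x y → rk x < rk y := by
    intro x y hxy
    apply Finset.card_lt_card
    refine ⟨?_, ?_⟩
    · intro z hz
      simp only [Finset.mem_filter, Finset.mem_univ, true_and] at hz ⊢
      exact htr z x y hz hxy
    · intro h
      have hx : x ∈ Finset.univ.filter fun z => r z y := by simp [hxy]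
      have := h hx
      simp only [Finset.mem_filter, Finset.mem_univ, true_and] at this
      exact hirr x this
  let f : Fin m → Fin m := fun x => ⟨rk x, hrk x⟩
  have hf : Function.Injective f := by
    intro x y hxy
    by_contra hne
    have hxy' : rk x = rk y := congrArg Fin.val hxy
    rcases htri x y hne with h | h
    · have := hlt x y h; omega
    · have := hlt y x h; omega
  have hb : Function.Bijective f := Finite.injective_iff_bijective.1 hf
  let e := (Equiv.ofBijective f hb).symm
  refine ⟨e, ?_⟩
  intro i j hij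
  have hne : e i ≠ e j := fun h => hij.ne (e.injective h)
  rcases htri (e i) (e j) hne with h | h
  · exact h
  · exfalso
    have h1 := hlt _ _ h
    have e1 : f (e i) = i := (Equiv.ofBijective f hb).apply_symm_apply i
    have e2 : f (e j) = j := (Equiv.ofBijective f hb).apply_symm_apply j
    have e1' : rk (e i) = i := congrArg Fin.val e1
    have e2' : rk (e j) = j := congrArg Fin.val e2
    have : (j : ℕ) < i := by omega
    have : (i : ℕ) < j := hij
    omega

/-- A point with positive barycentric weights lies in the hull. -/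
theorem mem_hull_of_dets {m : ℕ} (R : Fin m → ℝ × ℝ) {z x y w : Fin m}
    (h0 : 0 < det3 (R z) (R x) (R w)) (h1 : 0 < det3 (R y) (R x) (R w))
    (h2 : 0 < det3 (R z) (R y) (R w)) (h3 : 0 < det3 (R z) (R x) (R y)) :
    R y ∈ convexHull ℝ (R '' {z, x, w}) := by
  set D := det3 (R z) (R x) (R w) with hD
  have hsum : det3 (R y) (R x) (R w) / D + det3 (R z) (R y) (R w) / D + det3 (R z) (R x) (R y) / D = 1 := by
    have : det3 (R y) (R x) (R w) + det3 (R z) (R y) (R w) + det3 (R z) (R x) (R y) = D := by
      rw [hD]; unfold det3; ring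
    rw [← add_div, ← add_div, this]
    exact div_self h0.ne'
  have hmem : ∀ t ∈ ({z, x, w} : Set (Fin m)), R t ∈ convexHull ℝ (R '' {z, x, w}) := by
    intro t ht
    exact subset_convexHull ℝ _ ⟨t, ht, rfl⟩
  have hc := (convex_convexHull ℝ (R '' ({z, x, w} : Set (Fin m))))
  have key := hc.sum_mem (t := (Finset.univ : Finset (Fin 3)))
    (w := ![det3 (R y) (R x) (R w) / D, det3 (R z) (R y) (R w) / D, det3 (R z) (R x) (R y) / D])
    (z := ![R z, R x, R w]) (by
      intro i _
      fin_cases i
      · exact (div_pos h1 h0).le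
      · exact (div_pos h2 h0).le
      · exact (div_pos h3 h0).le) (by
      simp only [Fin.sum_univ_three]
      exact hsum) (by
      intro i _
      fin_cases i
      · exact hmem z (by simp)
      · exact hmem x (by simp)
      · exact hmem w (by simp))
  simp only [Fin.sum_univ_three] at key
  have e : R y = (det3 (R y) (R x) (R w) / D) • R z + (det3 (R z) (R y) (R w) / D) • R x +
      (det3 (R z) (R x) (R y) / D) • R w := by
    have hD' : D ≠ 0 := h0.ne'
    ext
    · simp only [Prod.fst_add, Prod.smul_fst, smul_eq_mul]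
      field_simp
      rw [hD]
      unfold det3
      ring
    · simp only [Prod.snd_add, Prod.smul_snd, smul_eq_mul]
      field_simp
      rw [hD]
      unfold det3
      ring
  rw [e]
  exact key

/-- Points in strictly convex position have a labeling with increasing triples positive. -/
theorem convex_labeling {m : ℕ} (R : Fin m → ℝ × ℝ)
    (hgp : ∀ x y z, x ≠ y → y ≠ z → x ≠ z → det3 (R x) (R y) (R z) ≠ 0)
    (hc : ConvexIndependent ℝ R) :
    ∃ e : Fin m ≃ Fin m, ∀ i j l, i < j → j < l → 0 < det3 (R (e i)) (R (e j)) (R (e l)) := by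
  classical
  rcases Nat.eq_zero_or_pos m with rfl | hm
  · exact ⟨Equiv.refl _, fun i => i.elim0⟩
  have : Nonempty (Fin m) := ⟨⟨0, hm⟩⟩
  obtain ⟨z, hz⟩ := Finite.exists_min (fun i => toLex (R i))
  have hinj := hc.injective
  -- the lexicographic property
  have hlex : ∀ x, x ≠ z → 0 < (R x).1 - (R z).1 ∨ ((R x).1 - (R z).1 = 0 ∧ 0 < (R x).2 - (R z).2) := by
    intro x hx
    have h1 := hz x
    have h2 := Prod.Lex.toLex_le_toLex.1 h1
    rcases h2 with h3 | ⟨h3, h4⟩
    · left; linarith
    · right
      refine ⟨by linarith, ?_⟩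
      have : (R z).2 ≠ (R x).2 := by
        intro h5
        exact hx (hinj (Prod.ext h3.symm h5.symm))
      have := lt_of_le_of_ne h4 this
      linarith
  let r : Fin m → Fin m → Prop := fun x y =>
    x ≠ y ∧ (x = z ∨ (y ≠ z ∧ 0 < det3 (R z) (R x) (R y)))
  have hanti : ∀ x y, det3 (R z) (R y) (R x) = - det3 (R z) (R x) (R y) := by
    intro x y; unfold det3; ring
  have htr : ∀ x y w, r x y → r y w → r x w := by
    rintro x y w ⟨hxy, h1⟩ ⟨hyw, h2⟩
    rcases h1 with rfl | ⟨hyz, h1⟩
    · refine ⟨?_, Or.inl rfl⟩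
      rintro rfl
      rcases h2 with h2 | ⟨h2, _⟩
      · exact hxy h2.symm
      · exact h2 rfl
    · by_cases hxz : x = z
      · subst hxz
        refine ⟨?_, Or.inl rfl⟩
        rintro rfl
        rcases h2 with h2 | ⟨h2, _⟩
        · exact hyz h2
        · exact h2 rfl
      · rcases h2 with h2 | ⟨hwz, h2⟩
        · exact absurd h2 hyz
        · have h3 : 0 < det3 (R z) (R x) (R w) := by
            have := slope_trans (hlex x hxz) (hlex y hyz) (hlex w hwz) (by unfold det3 at h1; linarith)
              (by unfold det3 at h2; linarith)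
            unfold det3
            linarith
          refine ⟨?_, Or.inr ⟨hwz, h3⟩⟩
          rintro rfl
          rw [hanti] at h2
          linarith
  obtain ⟨e, he⟩ := exists_rank r (fun x h => h.1 rfl) (by
    intro x y hxy
    by_cases hx : x = z
    · exact Or.inl ⟨hxy, Or.inl hx⟩
    by_cases hy : y = z
    · exact Or.inr ⟨hxy.symm, Or.inl hy⟩
    have h0 := hgp z x y (Ne.symm hx) hxy (Ne.symm hy)
    rcases lt_or_gt_of_ne h0 with h | h
    · right
      refine ⟨hxy.symm, Or.inr ⟨hx, ?_⟩⟩
      rw [hanti]
      linarith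
    · left
      exact ⟨hxy, Or.inr ⟨hy, h⟩⟩) htr
  refine ⟨e, ?_⟩
  intro i j l hij hjl
  have h1 := he i j hij
  have h2 := he j l hjl
  have h3 := htr _ _ _ h1 h2
  set x := e i
  set y := e j
  set w := e l
  obtain ⟨hxy, h1⟩ := h1
  obtain ⟨hyw, h2⟩ := h2
  obtain ⟨hxw, h3⟩ := h3
  rcases h1 with hxz | ⟨hyz, h1⟩
  · rw [hxz]
    rcases h2 with h2 | ⟨_, h2⟩
    · exact absurd (h2.trans hxz.symm) hxy.symm
    · exact h2
  · by_cases hxz : x = z
    · rw [hxz]
      rcases h2 with h2 | ⟨_, h2⟩
      · exact absurd h2 hyz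
      · exact h2
    · rcases h2 with h2 | ⟨hwz, h2⟩
      · exact absurd h2 hyz
      · rcases h3 with h3 | ⟨_, h3⟩
        · exact absurd h3 hxz
        · have h0 := hgp x y w hxy hyw hxw
          by_contra hcon
          have hneg : det3 (R x) (R y) (R w) < 0 := lt_of_le_of_ne (not_lt.1 hcon) h0
          have h4 : 0 < det3 (R y) (R x) (R w) := by
            have : det3 (R y) (R x) (R w) = - det3 (R x) (R y) (R w) := by unfold det3; ring
            rw [this]; linarith
          have hmem := mem_hull_of_dets R h3 h4 h2 h1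
          have := hc {z, x, w} y hmem
          simp only [Set.mem_insert_iff, Set.mem_singleton_iff] at this
          rcases this with h | h | h
          · exact hyz h
          · exact hxy h.symm
          · exact hyw h

/-- Zarankiewicz for convex position of one class. -/
theorem convex_main {m n : ℕ} (R : Fin m → ℝ × ℝ) (B : Fin n → ℝ × ℝ)
    (hgp : NoThreeCollinear (Sum.elim R B)) (hc : ConvexIndependent ℝ R) :
    dd m * dd n ≤ crossings R B := by
  have hgp' : ∀ x y z : Fin m, x ≠ y → y ≠ z → x ≠ z → det3 (R x) (R y) (R z) ≠ 0 := by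
    intro x y z hxy hyz hxz
    exact hgp (Sum.inl x) (Sum.inl y) (Sum.inl z) (by simpa using hxy) (by simpa using hyz)
      (by simpa using hxz)
  obtain ⟨e, he⟩ := convex_labeling R hgp' hc
  have hk2 : m / 2 + m / 2 ≤ m := by omega
  let idx : Fin (m / 2) × Bool → Fin m := fun u =>
    ⟨(u.1 : ℕ) + (if u.2 then m / 2 else 0), by
      have := u.1.2
      split_ifs <;> omega⟩
  have hidx : Function.Injective idx := by
    rintro ⟨i, s⟩ ⟨j, t⟩ h
    have h' : (i : ℕ) + (if s then m / 2 else 0) = (j : ℕ) + (if t then m / 2 else 0) :=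
      congrArg Fin.val h
    have hi := i.2
    have hj := j.2
    cases s <;> cases t <;> simp at h'
    · exact Prod.ext (Fin.ext h') rfl
    · omega
    · omega
    · exact Prod.ext (Fin.ext h') rfl
  refine family_dets R B hgp rfl (fun u => e (idx u)) (e.injective.comp hidx) ?_
  intro i i' hne
  have hid : ∀ (a b c : Fin m), a < b → b < c → pos (R (e a)) (R (e b)) (R (e c)) = true := by
    intro a b c hab hbc
    simp [pos, he a b c hab hbc]
  have hid2 : ∀ (a b c : Fin m), a < b → b < c → pos (R (e b)) (R (e a)) (R (e c)) = false := by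
    intro a b c hab hbc
    have := he a b c hab hbc
    have e1 : det3 (R (e b)) (R (e a)) (R (e c)) = - det3 (R (e a)) (R (e b)) (R (e c)) := by
      unfold det3; ring
    have : ¬ 0 < det3 (R (e b)) (R (e a)) (R (e c)) := by rw [e1]; linarith
    simp [pos, this]
  have hcyc : ∀ p q r : ℝ × ℝ, pos p q r = pos q r p := by
    intro p q r
    simp only [pos]
    rw [det3_cyc p q r]
  rcases lt_or_gt_of_ne hne with hlt | hlt
  · -- i < i'
    have hi1 : (i : ℕ) < i' := hlt
    have hi2 := i'.2
    have a1 : idx (i, false) < idx (i', false) := by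
      show (i : ℕ) + 0 < (i' : ℕ) + 0
      omega
    have a2 : idx (i', false) < idx (i, true) := by
      show (i' : ℕ) + 0 < (i : ℕ) + m / 2
      omega
    have a3 : idx (i, true) < idx (i', true) := by
      show (i : ℕ) + m / 2 < (i' : ℕ) + m / 2
      omega
    have v1 := hid _ _ _ a1 a2
    have v2 := hid _ _ _ a2 a3
    have v3 := hid _ _ _ (a1.trans a2) a3
    have v4 := hid _ _ _ a1 (a2.trans a3)
    have v3' := hcyc (R (e (idx (i, false)))) (R (e (idx (i, true)))) (R (e (idx (i', true))))
    have v4' := hcyc (R (e (idx (i', true)))) (R (e (idx (i, false)))) (R (e (idx (i', false))))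
    beta_reduce
    rw [v1, v2, ← v3', v3, v4', v4]
    simp
  · -- i' < i
    have hi1 : (i' : ℕ) < i := hlt
    have hi2 := i.2
    have a1 : idx (i', false) < idx (i, false) := by
      show (i' : ℕ) + 0 < (i : ℕ) + 0
      omega
    have a2 : idx (i, false) < idx (i', true) := by
      show (i : ℕ) + 0 < (i' : ℕ) + m / 2
      omega
    have a3 : idx (i', true) < idx (i, true) := by
      show (i' : ℕ) + m / 2 < (i : ℕ) + m / 2
      omega
    -- in increasing order x = a_i', y = a_i, u = c_i', v = c_i
    have w1 := hid2 _ _ _ a1 (a2.trans a3)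
    have w2 := hid2 _ _ _ (a1.trans a2) a3
    have w3 := hid2 _ _ _ a2 a3
    have w4 := hid2 _ _ _ a1 a2
    have t2 : pos (R (e (idx (i', false)))) (R (e (idx (i, true)))) (R (e (idx (i', true)))) = false := by
      rw [hcyc, hcyc]; exact w2
    have t3 : pos (R (e (idx (i, true)))) (R (e (idx (i', true)))) (R (e (idx (i, false)))) = false := by
      rw [hcyc]; exact w3
    have t4 : pos (R (e (idx (i', true)))) (R (e (idx (i, false)))) (R (e (idx (i', false)))) = false := by
      rw [hcyc]; exact w4
    beta_reduce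
    rw [w1, t2, t3, t4]
    simp

end Vale.Agent.P040
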