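import Vale.Agent.Lib.P040.Main

/-!
From tuples of crossing type to crossing pairs of segments, and the main family theorem.
-/

namespace Vale.Agent.P040

open Finset

theorem sum_sym {n : ℕ} (h : Fin n → Fin n → ℕ) (hs : ∀ x y, h x y = h y x) (hd : ∀ x, h x x = 0) :
    ∑ x, ∑ y, h x y = 2 * ∑ x, ∑ y, (if x < y then h x y else 0) := by
  have h1 : ∀ x y, h x y = (if x < y then h x y else 0) + (if y < x then h x y else 0) := by
    intro x y
    rcases lt_trichotomy x y with hxy | hxy | hxy
    · simp [hxy, not_lt.2 hxy.le]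
    · subst hxy; simp [hd]
    · simp [hxy, not_lt.2 hxy.le]
  have h2 : ∑ x, ∑ y, (if y < x then h x y else 0) = ∑ x, ∑ y, (if x < y then h x y else 0) := by
    rw [Finset.sum_comm]
    refine Finset.sum_congr rfl fun x _ => Finset.sum_congr rfl fun y _ => ?_
    rw [hs y x]
  calc ∑ x, ∑ y, h x y
      = ∑ x, ∑ y, ((if x < y then h x y else 0) + (if y < x then h x y else 0)) :=
        Finset.sum_congr rfl fun x _ => Finset.sum_congr rfl fun y _ => h1 x y
    _ = ∑ x, ∑ y, (if x < y then h x y else 0) + ∑ x, ∑ y, (if y < x then h x y else 0) := by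
        simp only [Finset.sum_add_distrib]
    _ = 2 * ∑ x, ∑ y, (if x < y then h x y else 0) := by
        rw [h2]; ring

theorem pos_beq_mul {x y : ℝ} (hx : x ≠ 0) (hy : y ≠ 0)
    (h : (decide (0 < x) == decide (0 < y)) = true) : 0 < x * y := by
  rcases lt_or_gt_of_ne hx with h1 | h1 <;> rcases lt_or_gt_of_ne hy with h2 | h2
  · exact mul_pos_of_neg_of_neg h1 h2
  · have a1 : ¬ 0 < x := not_lt.2 h1.le
    simp [a1, h2] at h
  · have a2 : ¬ 0 < y := not_lt.2 h2.le
    simp [a2, h1] at h
  · exact mul_pos h1 h2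

/-- A tuple of crossing type yields a crossing pair of edges of the four cycle. -/
theorem crossing_of_crossBit {u v x y : ℝ × ℝ} (d1 : det3 u v x ≠ 0) (d2 : det3 u v y ≠ 0)
    (d3 : det3 x y u ≠ 0) (d4 : det3 x y v ≠ 0)
    (hc : ((pos u v x == pos u v y) && (pos x y u == pos x y v)) = true) :
    (segment ℝ u x ∩ segment ℝ v y).Nonempty ∨ (segment ℝ u y ∩ segment ℝ v x).Nonempty := by
  rw [Bool.and_eq_true] at hc
  have h12 := pos_beq_mul d1 d2 hc.1
  have h34 := pos_beq_mul d3 d4 hc.2
  have s1 : det3 u x v = - det3 u v x := by unfold det3; ring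
  have s2 : det3 u x y = det3 x y u := by unfold det3; ring
  have s3 : det3 v y u = det3 u v y := by unfold det3; ring
  have s4 : det3 v y x = - det3 x y v := by unfold det3; ring
  have s5 : det3 u y v = - det3 u v y := by unfold det3; ring
  have s6 : det3 u y x = - det3 x y u := by unfold det3; ring
  have s7 : det3 v x u = det3 u v x := by unfold det3; ring
  have s8 : det3 v x y = det3 x y v := by unfold det3; ring
  set D1 := det3 u v x
  set D2 := det3 u v y
  set D3 := det3 x y u
  set D4 := det3 x y v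
  rcases lt_or_gt_of_ne d1 with a1 | a1 <;> rcases lt_or_gt_of_ne d3 with a3 | a3
  · have a2 : D2 < 0 := by
      by_contra hn
      have : 0 ≤ D2 := not_lt.1 hn
      nlinarith
    have a4 : D4 < 0 := by
      by_contra hn
      have : 0 ≤ D4 := not_lt.1 hn
      nlinarith
    left
    apply segments_meet
    · rw [s1, s2]; nlinarith
    · rw [s3, s4]; nlinarith
  · have a2 : D2 < 0 := by
      by_contra hn
      have : 0 ≤ D2 := not_lt.1 hn
      nlinarith
    have a4 : 0 < D4 := by
      by_contra hn
      have : D4 ≤ 0 := not_lt.1 hn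
      nlinarith
    right
    apply segments_meet
    · rw [s5, s6]; nlinarith
    · rw [s7, s8]; nlinarith
  · have a2 : 0 < D2 := by
      by_contra hn
      have : D2 ≤ 0 := not_lt.1 hn
      nlinarith
    have a4 : D4 < 0 := by
      by_contra hn
      have : 0 ≤ D4 := not_lt.1 hn
      nlinarith
    right
    apply segments_meet
    · rw [s5, s6]; nlinarith
    · rw [s7, s8]; nlinarith
  · have a2 : 0 < D2 := by
      by_contra hn
      have : D2 ≤ 0 := not_lt.1 hn
      nlinarith
    have a4 : 0 < D4 := by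
      by_contra hn
      have : D4 ≤ 0 := not_lt.1 hn
      nlinarith
    left
    apply segments_meet
    · rw [s1, s2]; nlinarith
    · rw [s3, s4]; nlinarith

section
variable {m n : ℕ} (R : Fin m → ℝ × ℝ) (B : Fin n → ℝ × ℝ)

/-- The orientation signs of a drawing. -/
noncomputable def chiOf : Fin m ⊕ Fin n → Fin m ⊕ Fin n → Fin m ⊕ Fin n → Bool :=
  fun i j k => pos (Sum.elim R B i) (Sum.elim R B j) (Sum.elim R B k)

/-- The tuples with two increasing reds and two increasing blues of crossing type. -/
noncomputable def tupleSet : Finset ((Fin m × Fin m) × (Fin n × Fin n)) := by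
  classical
  exact Finset.univ.filter fun t => t.1.1 < t.1.2 ∧ t.2.1 < t.2.2 ∧
    crossBit (chiOf R B) (Sum.inl t.1.1) (Sum.inl t.1.2) (Sum.inr t.2.1) (Sum.inr t.2.2) = true

theorem tupleSet_card_le (hgp : NoThreeCollinear (Sum.elim R B)) :
    (tupleSet R B).card ≤ crossings R B := by
  classical
  let φ : (Fin m × Fin m) × (Fin n × Fin n) → (Fin m × Fin n) × (Fin m × Fin n) := fun t =>
    if (segment ℝ (R t.1.1) (B t.2.1) ∩ segment ℝ (R t.1.2) (B t.2.2)).Nonempty then
      ((t.1.1, t.2.1), (t.1.2, t.2.2)) else ((t.1.1, t.2.2), (t.1.2, t.2.1))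
  have hinj : Set.InjOn φ (tupleSet R B) := by
    rintro ⟨⟨x, y⟩, ⟨j, j'⟩⟩ h1 ⟨⟨x2, y2⟩, ⟨j2, j2'⟩⟩ h2 heq
    simp only [tupleSet, Finset.coe_filter, Finset.mem_univ, true_and, Set.mem_ofPred_eq] at h1 h2
    have h1' := h1.2.1
    have h2' := h2.2.1
    simp only [φ] at heq
    split_ifs at heq
    · simp only [Prod.mk.injEq] at heq
      obtain ⟨⟨rfl, rfl⟩, rfl, rfl⟩ := heq
      rfl
    · simp only [Prod.mk.injEq] at heq
      obtain ⟨⟨rfl, rfl⟩, rfl, rfl⟩ := heq
      exact absurd h1' (lt_asymm h2')
    · simp only [Prod.mk.injEq] at heq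
      obtain ⟨⟨rfl, rfl⟩, rfl, rfl⟩ := heq
      exact absurd h1' (lt_asymm h2')
    · simp only [Prod.mk.injEq] at heq
      obtain ⟨⟨rfl, rfl⟩, rfl, rfl⟩ := heq
      rfl
  have h3 : (tupleSet R B).card = ((tupleSet R B).image φ).card :=
    (Finset.card_image_of_injOn hinj).symm
  rw [h3, ← Set.ncard_coe_finset]
  unfold crossings
  apply Set.ncard_le_ncard _ (Set.toFinite _)
  intro q hq
  rw [Finset.coe_image] at hq
  obtain ⟨⟨⟨x, y⟩, ⟨j, j'⟩⟩, ht, rfl⟩ := hq
  simp only [tupleSet, Finset.coe_filter, Finset.mem_univ, true_and, Set.mem_ofPred_eq] at ht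
  obtain ⟨hxy, hj, hc⟩ := ht
  simp only [φ]
  split_ifs with hm
  · exact ⟨hxy, hj.ne, hm⟩
  · have hxy' : x ≠ y := hxy.ne
    have hj' : j ≠ j' := hj.ne
    have d1 := hgp (Sum.inl x) (Sum.inl y) (Sum.inr j) (by simpa using hxy') (by simp) (by simp)
    have d2 := hgp (Sum.inl x) (Sum.inl y) (Sum.inr j') (by simpa using hxy') (by simp) (by simp)
    have d3 := hgp (Sum.inr j) (Sum.inr j') (Sum.inl x) (by simpa using hj') (by simp) (by simp)
    have d4 := hgp (Sum.inr j) (Sum.inr j') (Sum.inl y) (by simpa using hj') (by simp) (by simp)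
    simp only [Sum.elim_inl, Sum.elim_inr] at d1 d2 d3 d4
    have hc' := crossing_of_crossBit d1 d2 d3 d4 hc
    rcases hc' with hc' | hc'
    · exact absurd hc' hm
    · exact ⟨hxy, hj.ne', hc'⟩

theorem total_le (hgp : NoThreeCollinear (Sum.elim R B)) :
    ∑ x, ∑ y, gg (chiOf R B) x y ≤ 4 * crossings R B := by
  classical
  have hχ : IsChi (chiOf R B) := isChi_of_ncl (Sum.elim R B) hgp
  have h1 := sum_sym (gg (chiOf R B)) (gg_symm _ hχ) (gg_diag _)
  have h2 : ∀ x y : Fin m, gg (chiOf R B) x y =
      2 * ∑ j, ∑ j', (if j < j' then cb (chiOf R B) x y j j' else 0) := by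
    intro x y
    exact sum_sym (cb (chiOf R B) x y) (cb_symm_blue _ hχ x y) (fun j => by simp [cb])
  have h3 : (tupleSet R B).card = ∑ x, ∑ y, (if x < y then
      ∑ j, ∑ j', (if j < j' then cb (chiOf R B) x y j j' else 0) else 0) := by
    unfold tupleSet
    rw [Finset.card_filter, Fintype.sum_prod_type, Fintype.sum_prod_type]
    refine Finset.sum_congr rfl fun x _ => Finset.sum_congr rfl fun y _ => ?_
    rw [Fintype.sum_prod_type]
    by_cases hxy : x < y
    · simp only [hxy, if_true, true_and]
      refine Finset.sum_congr rfl fun j _ => Finset.sum_congr rfl fun j' _ => ?_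
      by_cases hj : j < j'
      · rw [cb_eq _ x y j j' hxy.ne hj.ne]
        simp only [hj, if_true, true_and]
        cases crossBit (chiOf R B) (Sum.inl x) (Sum.inl y) (Sum.inr j) (Sum.inr j') <;> simp
      · simp [hj]
    · simp [hxy]
  rw [h1]
  have h4 : ∑ x, ∑ y, (if x < y then gg (chiOf R B) x y else 0) =
      2 * ∑ x, ∑ y, (if x < y then
        ∑ j, ∑ j', (if j < j' then cb (chiOf R B) x y j j' else 0) else 0) := by
    rw [Finset.mul_sum]
    refine Finset.sum_congr rfl fun x _ => ?_
    rw [Finset.mul_sum]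
    refine Finset.sum_congr rfl fun y _ => ?_
    by_cases hxy : x < y
    · simp only [hxy, if_true]
      exact h2 x y
    · simp [hxy]
  rw [h4, ← h3]
  have := tupleSet_card_le R B hgp
  omega

end

theorem dd_even (k : ℕ) : dd (2 * k) = k * (k - 1) := by
  unfold dd
  have h1 : 2 * k / 2 = k := by omega
  have h2 : (2 * k - 1) / 2 = k - 1 := by omega
  rw [h1, h2]

theorem dd_odd (k : ℕ) : dd (2 * k + 1) = k * k := by
  unfold dd
  have h1 : (2 * k + 1) / 2 = k := by omega
  have h2 : (2 * k + 1 - 1) / 2 = k := by omega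
  rw [h1, h2]

/-- The family theorem with the hypothesis in terms of orientation of the four cycles. -/
theorem family_dets {m n k : ℕ} (R : Fin m → ℝ × ℝ) (B : Fin n → ℝ × ℝ)
    (hgp : NoThreeCollinear (Sum.elim R B)) (hk : k = m / 2) (p : Fin k × Bool → Fin m)
    (hp : Function.Injective p)
    (hconv : ∀ i i', i ≠ i' →
      pos (R (p (i, false))) (R (p (i', false))) (R (p (i, true))) =
        pos (R (p (i', false))) (R (p (i, true))) (R (p (i', true))) ∧
      pos (R (p (i', false))) (R (p (i, true))) (R (p (i', true))) =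
        pos (R (p (i, true))) (R (p (i', true))) (R (p (i, false))) ∧
      pos (R (p (i, true))) (R (p (i', true))) (R (p (i, false))) =
        pos (R (p (i', true))) (R (p (i, false))) (R (p (i', false)))) :
    dd m * dd n ≤ crossings R B := by
  have hχ : IsChi (chiOf R B) := isChi_of_ncl (Sum.elim R B) hgp
  have hT := total_le R B hgp
  rcases Nat.even_or_odd' m with ⟨t, ht | ht⟩
  · have hkt : k = t := by omega
    subst hkt
    subst ht
    have h1 := total_even (chiOf R B) hχ p hp hconv
    rw [dd_even]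
    have h2 : k * (k - 1) * (4 * dd n) = 4 * (k * (k - 1) * dd n) := by ring
    omega
  · have hkt : k = t := by omega
    subst hkt
    subst ht
    have hw : ∃ w, ∀ u, p u ≠ w := by
      by_contra hcon
      push Not at hcon
      have hsurj : Function.Surjective p := fun w => hcon w
      have := Fintype.card_le_of_surjective p hsurj
      simp only [Fintype.card_prod, Fintype.card_fin, Fintype.card_bool] at this
      omega
    obtain ⟨w, hw⟩ := hw
    have h1 := total_odd (chiOf R B) hχ p hp w hw hconv
    rw [dd_odd]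
    have h2 : k * k * (4 * dd n) = 4 * (k * k * dd n) := by ring
    omega

/-- Four points with crossing diagonals: the cycle has constant orientation. -/
theorem conv_of_meet {a b c d : ℝ × ℝ} (hab : det3 a b c ≠ 0) (hcd : det3 c d a ≠ 0)
    (hb : det3 b c d ≠ 0) (hd : det3 d a b ≠ 0)
    (hm : (segment ℝ a c ∩ segment ℝ b d).Nonempty) :
    pos a b c = pos b c d ∧ pos b c d = pos c d a ∧ pos c d a = pos d a b := by
  have s1 : det3 a c b = - det3 a b c := by unfold det3; ring
  have s2 : det3 a c d = det3 c d a := by unfold det3; ring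
  have s3 : det3 b d a = det3 d a b := by unfold det3; ring
  have s4 : det3 b d c = - det3 b c d := by unfold det3; ring
  have h1 := dets_of_meet a c b d (by rw [s1]; exact neg_ne_zero.2 hab) (by rw [s2]; exact hcd) hm
  have h2 := dets_of_meet b d a c (by rw [s3]; exact hd) (by rw [s4]; exact neg_ne_zero.2 hb)
    (by rwa [Set.inter_comm])
  rw [s1, s2] at h1
  rw [s3, s4] at h2
  have hid : det3 a b c + det3 c d a = det3 b c d + det3 d a b := by unfold det3; ring
  set A := det3 a b c
  set B := det3 b c d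
  set C := det3 c d a
  set D := det3 d a b
  unfold pos
  simp only [decide_eq_decide]
  show (0 < A ↔ 0 < B) ∧ (0 < B ↔ 0 < C) ∧ (0 < C ↔ 0 < D)
  have sA : 0 < A * C := by nlinarith
  have sB : 0 < B * D := by nlinarith
  rcases lt_or_gt_of_ne hab with a1 | a1
  · have a3 : C < 0 := by
      by_contra hn
      have : 0 ≤ C := not_lt.1 hn
      nlinarith
    have a2 : B < 0 := by
      by_contra hn
      have : 0 ≤ B := not_lt.1 hn
      have b' : 0 < B := lt_of_le_of_ne this (Ne.symm hb)
      have : 0 < D := by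
        by_contra hn2
        have : D ≤ 0 := not_lt.1 hn2
        nlinarith
      linarith
    have a4 : D < 0 := by
      by_contra hn
      have : 0 ≤ D := not_lt.1 hn
      nlinarith
    have n1 : ¬ 0 < A := by linarith
    have n2 : ¬ 0 < B := by linarith
    have n3 : ¬ 0 < C := by linarith
    have n4 : ¬ 0 < D := by linarith
    exact ⟨iff_of_false n1 n2, iff_of_false n2 n3, iff_of_false n3 n4⟩
  · have a3 : 0 < C := by
      by_contra hn
      have : C ≤ 0 := not_lt.1 hn
      nlinarith
    have a2 : 0 < B := by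
      by_contra hn
      have : B ≤ 0 := not_lt.1 hn
      have b' : B < 0 := lt_of_le_of_ne this hb
      have : D < 0 := by
        by_contra hn2
        have : 0 ≤ D := not_lt.1 hn2
        nlinarith
      linarith
    have a4 : 0 < D := by
      by_contra hn
      have : D ≤ 0 := not_lt.1 hn
      nlinarith
    exact ⟨iff_of_true a1 a2, iff_of_true a2 a3, iff_of_true a3 a4⟩

/-- The family theorem: a perfect crossing family in the red class. -/
theorem family_segments {m n k : ℕ} (R : Fin m → ℝ × ℝ) (B : Fin n → ℝ × ℝ)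
    (hgp : NoThreeCollinear (Sum.elim R B)) (hk : k = m / 2) (p : Fin k × Bool → Fin m)
    (hp : Function.Injective p)
    (hcross : ∀ i i', i ≠ i' →
      (segment ℝ (R (p (i, false))) (R (p (i, true))) ∩
        segment ℝ (R (p (i', false))) (R (p (i', true)))).Nonempty) :
    dd m * dd n ≤ crossings R B := by
  refine family_dets R B hgp hk p hp ?_
  intro i i' hne
  have inj : ∀ {s s' : Bool}, p (i, s) ≠ p (i', s') := by
    intro s s' h
    exact hne (congrArg Prod.fst (hp h))
  have ne1 : p (i, false) ≠ p (i, true) := by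
    intro h
    have := congrArg Prod.snd (hp h)
    simp at this
  have ne2 : p (i', false) ≠ p (i', true) := by
    intro h
    have := congrArg Prod.snd (hp h)
    simp at this
  have hgp' : ∀ x y z : Fin m, x ≠ y → y ≠ z → x ≠ z → det3 (R x) (R y) (R z) ≠ 0 := by
    intro x y z hxy hyz hxz
    exact hgp (Sum.inl x) (Sum.inl y) (Sum.inl z) (by simpa using hxy) (by simpa using hyz)
      (by simpa using hxz)
  exact conv_of_meet (hgp' _ _ _ inj inj.symm ne1) (hgp' _ _ _ inj inj.symm ne1.symm)
    (hgp' _ _ _ inj.symm inj ne2) (hgp' _ _ _ inj.symm inj ne2.symm) (hcross i i' hne)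

end Vale.Agent.P040
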