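import Mathlib

/-!
Straight-line drawings of complete bipartite graphs: orientation determinant,
general position and the number of crossing pairs of edges.
-/

namespace Vale.Agent.P040

/-- The orientation determinant of three points of the plane. -/
def det3 (p q r : ℝ × ℝ) : ℝ :=
  (q.1 - p.1) * (r.2 - p.2) - (q.2 - p.2) * (r.1 - p.1)

/-- No three points of the family lie on a common line. -/
def NoThreeCollinear {ι : Type*} (P : ι → ℝ × ℝ) : Prop :=
  ∀ i j k, i ≠ j → j ≠ k → i ≠ k → det3 (P i) (P j) (P k) ≠ 0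

/-- The number of crossings of the straight-line drawing of `K_{m,n}` with the red vertices
at `R` and the blue vertices at `B`: unordered pairs of vertex-disjoint edges whose segments meet. -/
noncomputable def crossings {m n : ℕ} (R : Fin m → ℝ × ℝ) (B : Fin n → ℝ × ℝ) : ℕ :=
  Set.ncard {q : (Fin m × Fin n) × (Fin m × Fin n) |
    q.1.1 < q.2.1 ∧ q.1.2 ≠ q.2.2 ∧
      (segment ℝ (R q.1.1) (B q.1.2) ∩ segment ℝ (R q.2.1) (B q.2.2)).Nonempty}

/-- The Zarankiewicz number `d_r = ⌊r/2⌋⌊(r-1)/2⌋`. -/
def dd (r : ℕ) : ℕ := (r / 2) * ((r - 1) / 2)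

end Vale.Agent.P040
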