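import Vale.Agent.Lib.P040.CertB

/-!
The local inequalities on five and seven points, for every uniform chirotope.
-/

namespace Vale.Agent.P040

section
variable {ι : Type*} {χ : ι → ι → ι → Bool}

theorem IsChi.cyc2 (hχ : IsChi χ) {i j k : ι} (hij : i ≠ j) (hjk : j ≠ k) (hik : i ≠ k) :
    χ k i j = χ i j k := by
  rw [hχ.cyc i j k hij hjk hik, hχ.cyc j k i hjk (Ne.symm hik) (Ne.symm hij)]

theorem IsChi.anti_r (hχ : IsChi χ) {i j k : ι} (hij : i ≠ j) (hjk : j ≠ k) (hik : i ≠ k) :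
    χ i k j = !χ i j k := by
  rw [hχ.cyc i k j hik (Ne.symm hjk) hij, hχ.anti j k i hjk (Ne.symm hik) (Ne.symm hij),
    hχ.cyc i j k hij hjk hik]

theorem crossBit_swap_uv (hχ : IsChi χ) {u v x y : ι} (huv : u ≠ v) (hvx : v ≠ x) (hux : u ≠ x)
    (hvy : v ≠ y) (huy : u ≠ y) : crossBit χ v u x y = crossBit χ u v x y := by
  unfold crossBit
  rw [hχ.anti u v x huv hvx hux, hχ.anti u v y huv hvy huy]
  cases χ u v x <;> cases χ u v y <;> cases χ x y u <;> cases χ x y v <;> rfl

theorem crossBit_swap_xy (hχ : IsChi χ) {u v x y : ι} (hxy : x ≠ y) (hyu : y ≠ u) (hxu : x ≠ u)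
    (hyv : y ≠ v) (hxv : x ≠ v) : crossBit χ u v y x = crossBit χ u v x y := by
  unfold crossBit
  rw [hχ.anti x y u hxy hyu hxu, hχ.anti x y v hxy hyv hxv]
  cases χ u v x <;> cases χ u v y <;> cases χ x y u <;> cases χ x y v <;> rfl

/-- Majority of three Booleans. -/
def maj (x y z : Bool) : Bool := (x && y) || (y && z) || (x && z)

/-- The type of a point relative to an oriented triple. -/
def oo (χ : ι → ι → ι → Bool) (w p q r : ι) : Bool := maj (χ w p q) (χ w q r) (χ w r p)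

theorem lemmaP_bool : ∀ x1 x2 x3 x4 x5 x6 x7 x8 x9 x10 : Bool,
    ¬ (xor x1 x6 = (!xor x2 x5) ∧ (!xor x2 x5) = xor x3 x4) →
    ¬ (xor (!x1) x9 = (!xor (!x2) x8) ∧ (!xor (!x2) x8) = xor (!x3) x7) →
    ¬ (xor x1 x10 = (!xor (!x4) (!x8)) ∧ (!xor (!x4) (!x8)) = xor (!x5) (!x7)) →
    ¬ (xor x2 (!x10) = (!xor x4 (!x9)) ∧ (!xor x4 (!x9)) = xor (!x6) x7) →
    ¬ (xor x3 x10 = (!xor x5 x9) ∧ (!xor x5 x9) = xor x6 x8) →
    xor (xor ((x1 == x2) && (x4 == x7)) ((x1 == x3) && (x5 == x8))) ((x2 == x3) && (x6 == x9)) =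
      (maj x4 x6 (!x5) == maj x7 x9 (!x8)) := by
  decide +kernel

/-- Parity lemma on five points. -/
theorem lemmaP (hχ : IsChi χ) {u v p q r : ι} (hnd : [u, v, p, q, r].Nodup) :
    xor (xor (crossBit χ u v p q) (crossBit χ u v p r)) (crossBit χ u v q r) =
      (oo χ u p q r == oo χ v p q r) := by
  have hnd' := hnd
  simp only [List.nodup_cons, List.mem_cons, List.not_mem_nil, or_false, not_or,
    List.nodup_nil, not_false_eq_true, and_true] at hnd'
  obtain ⟨⟨uv, up, uq, ur⟩, ⟨vp, vq, vr⟩, ⟨pq, pr⟩, qr⟩ := hnd'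
  have gu := hχ.gp u v p q r hnd
  have gv := hχ.gp v u p q r (by
    simp only [List.nodup_cons, List.mem_cons, List.not_mem_nil, or_false, not_or,
      List.nodup_nil, not_false_eq_true, and_true]
    exact ⟨⟨Ne.symm uv, vp, vq, vr⟩, ⟨up, uq, ur⟩, ⟨pq, pr⟩, qr⟩)
  have gp := hχ.gp p u v q r (by
    simp only [List.nodup_cons, List.mem_cons, List.not_mem_nil, or_false, not_or,
      List.nodup_nil, not_false_eq_true, and_true]
    exact ⟨⟨Ne.symm up, Ne.symm vp, pq, pr⟩, ⟨uv, uq, ur⟩, ⟨vq, vr⟩, qr⟩)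
  have gq := hχ.gp q u v p r (by
    simp only [List.nodup_cons, List.mem_cons, List.not_mem_nil, or_false, not_or,
      List.nodup_nil, not_false_eq_true, and_true]
    exact ⟨⟨Ne.symm uq, Ne.symm vq, Ne.symm pq, qr⟩, ⟨uv, up, ur⟩, ⟨vp, vr⟩, pr⟩)
  have gr := hχ.gp r u v p q (by
    simp only [List.nodup_cons, List.mem_cons, List.not_mem_nil, or_false, not_or,
      List.nodup_nil, not_false_eq_true, and_true]
    exact ⟨⟨Ne.symm ur, Ne.symm vr, Ne.symm pr, Ne.symm qr⟩, ⟨uv, up, uq⟩, ⟨vp, vq⟩, pq⟩)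
  -- normal forms
  have e1 : χ v u p = !χ u v p := hχ.anti u v p uv vp up
  have e2 : χ v u q = !χ u v q := hχ.anti u v q uv vq uq
  have e3 : χ v u r = !χ u v r := hχ.anti u v r uv vr ur
  have e4 : χ p u v = χ u v p := hχ.cyc2 uv vp up
  have e5 : χ p u q = !χ u p q := hχ.anti u p q up pq uq
  have e6 : χ p v r = !χ v p r := hχ.anti v p r vp pr vr
  have e7 : χ p u r = !χ u p r := hχ.anti u p r up pr ur
  have e8 : χ p v q = !χ v p q := hχ.anti v p q vp pq vq
  have e9 : χ q u v = χ u v q := hχ.cyc2 uv vq uq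
  have e10 : χ q p r = !χ p q r := hχ.anti p q r pq qr pr
  have e11 : χ q u p = χ u p q := hχ.cyc2 up pq uq
  have e12 : χ q v r = !χ v q r := hχ.anti v q r vq qr vr
  have e13 : χ q u r = !χ u q r := hχ.anti u q r uq qr ur
  have e14 : χ q v p = χ v p q := hχ.cyc2 vp pq vq
  have e15 : χ r u v = χ u v r := hχ.cyc2 uv vr ur
  have e16 : χ r p q = χ p q r := hχ.cyc2 pq qr pr
  have e17 : χ r u p = χ u p r := hχ.cyc2 up pr ur
  have e18 : χ r v q = χ v q r := hχ.cyc2 vq qr vr
  have e19 : χ r u q = χ u q r := hχ.cyc2 uq qr ur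
  have e20 : χ r v p = χ v p r := hχ.cyc2 vp pr vr
  have e21 : χ p q u = χ u p q := (hχ.cyc u p q up pq uq).symm
  have e22 : χ p q v = χ v p q := (hχ.cyc v p q vp pq vq).symm
  have e23 : χ p r u = χ u p r := (hχ.cyc u p r up pr ur).symm
  have e24 : χ p r v = χ v p r := (hχ.cyc v p r vp pr vr).symm
  have e25 : χ q r u = χ u q r := (hχ.cyc u q r uq qr ur).symm
  have e26 : χ q r v = χ v q r := (hχ.cyc v q r vq qr vr).symm
  have e27 : χ u r p = !χ u p r := hχ.anti_r up pr ur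
  have e28 : χ v r p = !χ v p r := hχ.anti_r vp pr vr
  rw [e1, e2, e3] at gv
  rw [e4, e5, e6, e7, e8] at gp
  rw [e9, e10, e11, e12, e13, e14] at gq
  rw [e15, e16, e17, e18, e19, e20] at gr
  unfold crossBit oo
  rw [e21, e22, e23, e24, e25, e26, e27, e28]
  exact lemmaP_bool _ _ _ _ _ _ _ _ _ _ gu gv gp gq gr

/-- The seven point lemma in general form. -/
theorem lemmaB (hχ : IsChi χ) {a b c d p q r : ι} (hnd : [a, b, c, d, p, q, r].Nodup)
    (h1 : χ a b c = true) (h2 : χ b c d = true) (h3 : χ c d a = true) (h4 : χ d a b = true)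
    (hab : crossBit χ a b p q = false ∧ crossBit χ a b p r = false ∧ crossBit χ a b q r = false)
    (hbc : crossBit χ b c p q = false ∧ crossBit χ b c p r = false ∧ crossBit χ b c q r = false)
    (hcd : crossBit χ c d p q = false ∧ crossBit χ c d p r = false ∧ crossBit χ c d q r = false)
    (hda : crossBit χ d a p q = false ∧ crossBit χ d a p r = false ∧ crossBit χ d a q r = false) :
    False := by
  set L : List ι := [a, b, c, d, p, q, r] with hL
  have hlen : L.length = 7 := rfl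
  let v : ℕ → ι := fun n => L.getD n r
  have hv : ∀ i j, i < 7 → j < 7 → v i = v j → i = j := by
    intro i j hi hj hij
    have e1 : v i = L[i]'(by omega) := List.getD_eq_getElem _ _ _
    have e2 : v j = L[j]'(by omega) := List.getD_eq_getElem _ _ _
    rw [e1, e2] at hij
    exact (hnd.getElem_inj_iff).1 hij
  have hv' : ∀ i j, i < 7 → j < 7 → i ≠ j → v i ≠ v j := fun i j hi hj hij h => hij (hv i j hi hj h)
  have hχ7 : IsChi7 (fun i j k => χ (v i) (v j) (v k)) := by
    refine ⟨?_, ?_, ?_⟩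
    · intro i j k hi hj hk hij hjk hik
      exact hχ.cyc _ _ _ (hv' _ _ hi hj hij) (hv' _ _ hj hk hjk) (hv' _ _ hi hk hik)
    · intro i j k hi hj hk hij hjk hik
      exact hχ.anti _ _ _ (hv' _ _ hi hj hij) (hv' _ _ hj hk hjk) (hv' _ _ hi hk hik)
    · intro x1 x2 x3 x4 x5 h1' h2' h3' h4' h5' hn
      apply hχ.gp
      have := List.Nodup.map_on (f := v) (l := [x1, x2, x3, x4, x5]) (by
        intro s hs t ht hst
        simp only [List.mem_cons, List.not_mem_nil, or_false] at hs ht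
        have hs' : s < 7 := by omega
        have ht' : t < 7 := by omega
        exact hv s t hs' ht' hst) hn
      simpa using this
  refine lemmaB_nat hχ7 h1 h2 h3 h4 ?_
  intro u w x y hall
  unfold allowedNC at hall
  simp only [Bool.and_eq_true, Bool.or_eq_true, beq_iff_eq] at hall
  obtain ⟨hs, ht⟩ := hall
  rcases hs with (⟨⟨rfl, rfl⟩ | ⟨rfl, rfl⟩⟩ | ⟨rfl, rfl⟩) | ⟨rfl, rfl⟩ <;>
    rcases ht with (⟨rfl, rfl⟩ | ⟨rfl, rfl⟩) | ⟨rfl, rfl⟩
  · exact hab.1
  · exact hab.2.1
  · exact hab.2.2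
  · exact hbc.1
  · exact hbc.2.1
  · exact hbc.2.2
  · exact hcd.1
  · exact hcd.2.1
  · exact hcd.2.2
  · exact hda.1
  · exact hda.2.1
  · exact hda.2.2

/-- Indicator. -/
abbrev bn (b : Bool) : ℕ := b.toNat

theorem bn_parity (x y z : Bool) : (bn x + bn y + bn z) % 2 = bn (xor (xor x y) z) := by
  revert x y z; decide

theorem cycle_even (a b c d : Bool) :
    (bn (a == b) + bn (b == c) + bn (c == d) + bn (d == a)) % 2 = 0 := by
  revert a b c d; decide

theorem bn_zero {x : Bool} (h : bn x = 0) : x = false := by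
  cases x <;> simp_all

/-- Three sides of a triangle, five point parity: among three points two have the same type. -/
theorem k33_local (hχ : IsChi χ) {w a c p q r : ι} (hnd : [w, a, c, p, q, r].Nodup) :
    1 ≤ (bn (crossBit χ w a p q) + bn (crossBit χ w a p r) + bn (crossBit χ w a q r)) +
      (bn (crossBit χ a c p q) + bn (crossBit χ a c p r) + bn (crossBit χ a c q r)) +
      (bn (crossBit χ w c p q) + bn (crossBit χ w c p r) + bn (crossBit χ w c q r)) := by
  simp only [List.nodup_cons, List.mem_cons, List.not_mem_nil, or_false, not_or,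
    List.nodup_nil, not_false_eq_true, and_true] at hnd
  obtain ⟨⟨wa, wc, wp, wq, wr⟩, ⟨ac, ap, aq, ar⟩, ⟨cp, cq, cr⟩, ⟨pq, pr⟩, qr⟩ := hnd
  have nd1 : [w, a, p, q, r].Nodup := by
    simp only [List.nodup_cons, List.mem_cons, List.not_mem_nil, or_false, not_or,
      List.nodup_nil, not_false_eq_true, and_true]
    exact ⟨⟨wa, wp, wq, wr⟩, ⟨ap, aq, ar⟩, ⟨pq, pr⟩, qr⟩
  have nd2 : [a, c, p, q, r].Nodup := by
    simp only [List.nodup_cons, List.mem_cons, List.not_mem_nil, or_false, not_or,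
      List.nodup_nil, not_false_eq_true, and_true]
    exact ⟨⟨ac, ap, aq, ar⟩, ⟨cp, cq, cr⟩, ⟨pq, pr⟩, qr⟩
  have nd3 : [w, c, p, q, r].Nodup := by
    simp only [List.nodup_cons, List.mem_cons, List.not_mem_nil, or_false, not_or,
      List.nodup_nil, not_false_eq_true, and_true]
    exact ⟨⟨wc, wp, wq, wr⟩, ⟨cp, cq, cr⟩, ⟨pq, pr⟩, qr⟩
  have l1 := lemmaP hχ nd1
  have l2 := lemmaP hχ nd2
  have l3 := lemmaP hχ nd3
  have p1 := bn_parity (crossBit χ w a p q) (crossBit χ w a p r) (crossBit χ w a q r)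
  have p2 := bn_parity (crossBit χ a c p q) (crossBit χ a c p r) (crossBit χ a c q r)
  have p3 := bn_parity (crossBit χ w c p q) (crossBit χ w c p r) (crossBit χ w c q r)
  rw [l1] at p1
  rw [l2] at p2
  rw [l3] at p3
  have key : ∀ x y z : Bool, 1 ≤ bn (x == y) + bn (y == z) + bn (x == z) := by decide
  have := key (oo χ w p q r) (oo χ a p q r) (oo χ c p q r)
  omega

/-- The block inequality for a convex cycle, positive orientation. -/
theorem block_local_pos (hχ : IsChi χ) {a b c d p q r : ι} (hnd : [a, b, c, d, p, q, r].Nodup)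
    (h1 : χ a b c = true) (h2 : χ b c d = true) (h3 : χ c d a = true) (h4 : χ d a b = true) :
    2 ≤ (bn (crossBit χ a b p q) + bn (crossBit χ a b p r) + bn (crossBit χ a b q r)) +
      (bn (crossBit χ b c p q) + bn (crossBit χ b c p r) + bn (crossBit χ b c q r)) +
      (bn (crossBit χ c d p q) + bn (crossBit χ c d p r) + bn (crossBit χ c d q r)) +
      (bn (crossBit χ d a p q) + bn (crossBit χ d a p r) + bn (crossBit χ d a q r)) := by
  have hnd' := hnd
  simp only [List.nodup_cons, List.mem_cons, List.not_mem_nil, or_false, not_or,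
    List.nodup_nil, not_false_eq_true, and_true] at hnd'
  obtain ⟨⟨ab, ac, ad, ap, aq, ar⟩, ⟨bc, bd, bp, bq, br⟩, ⟨cd, cp, cq, cr⟩, ⟨dp, dq, dr⟩,
    ⟨pq, pr⟩, qr⟩ := hnd'
  have nd1 : [a, b, p, q, r].Nodup := by
    simp only [List.nodup_cons, List.mem_cons, List.not_mem_nil, or_false, not_or,
      List.nodup_nil, not_false_eq_true, and_true]
    exact ⟨⟨ab, ap, aq, ar⟩, ⟨bp, bq, br⟩, ⟨pq, pr⟩, qr⟩
  have nd2 : [b, c, p, q, r].Nodup := by
    simp only [List.nodup_cons, List.mem_cons, List.not_mem_nil, or_false, not_or,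
      List.nodup_nil, not_false_eq_true, and_true]
    exact ⟨⟨bc, bp, bq, br⟩, ⟨cp, cq, cr⟩, ⟨pq, pr⟩, qr⟩
  have nd3 : [c, d, p, q, r].Nodup := by
    simp only [List.nodup_cons, List.mem_cons, List.not_mem_nil, or_false, not_or,
      List.nodup_nil, not_false_eq_true, and_true]
    exact ⟨⟨cd, cp, cq, cr⟩, ⟨dp, dq, dr⟩, ⟨pq, pr⟩, qr⟩
  have nd4 : [d, a, p, q, r].Nodup := by
    simp only [List.nodup_cons, List.mem_cons, List.not_mem_nil, or_false, not_or,
      List.nodup_nil, not_false_eq_true, and_true]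
    exact ⟨⟨Ne.symm ad, dp, dq, dr⟩, ⟨ap, aq, ar⟩, ⟨pq, pr⟩, qr⟩
  have l1 := lemmaP hχ nd1
  have l2 := lemmaP hχ nd2
  have l3 := lemmaP hχ nd3
  have l4 := lemmaP hχ nd4
  have p1 := bn_parity (crossBit χ a b p q) (crossBit χ a b p r) (crossBit χ a b q r)
  have p2 := bn_parity (crossBit χ b c p q) (crossBit χ b c p r) (crossBit χ b c q r)
  have p3 := bn_parity (crossBit χ c d p q) (crossBit χ c d p r) (crossBit χ c d q r)
  have p4 := bn_parity (crossBit χ d a p q) (crossBit χ d a p r) (crossBit χ d a q r)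
  rw [l1] at p1
  rw [l2] at p2
  rw [l3] at p3
  rw [l4] at p4
  have ev := cycle_even (oo χ a p q r) (oo χ b p q r) (oo χ c p q r) (oo χ d p q r)
  by_contra hcon
  have hz : (bn (crossBit χ a b p q) + bn (crossBit χ a b p r) + bn (crossBit χ a b q r)) +
      (bn (crossBit χ b c p q) + bn (crossBit χ b c p r) + bn (crossBit χ b c q r)) +
      (bn (crossBit χ c d p q) + bn (crossBit χ c d p r) + bn (crossBit χ c d q r)) +
      (bn (crossBit χ d a p q) + bn (crossBit χ d a p r) + bn (crossBit χ d a q r)) = 0 := by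
    omega
  refine lemmaB hχ hnd h1 h2 h3 h4 ⟨?_, ?_, ?_⟩ ⟨?_, ?_, ?_⟩ ⟨?_, ?_, ?_⟩ ⟨?_, ?_, ?_⟩ <;>
    · apply bn_zero
      omega

/-- The block inequality for a convex cycle, either orientation. -/
theorem block_local (hχ : IsChi χ) {a b c d p q r : ι} (hnd : [a, b, c, d, p, q, r].Nodup)
    (h1 : χ a b c = χ b c d) (h2 : χ b c d = χ c d a) (h3 : χ c d a = χ d a b) :
    2 ≤ (bn (crossBit χ a b p q) + bn (crossBit χ a b p r) + bn (crossBit χ a b q r)) +
      (bn (crossBit χ b c p q) + bn (crossBit χ b c p r) + bn (crossBit χ b c q r)) +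
      (bn (crossBit χ c d p q) + bn (crossBit χ c d p r) + bn (crossBit χ c d q r)) +
      (bn (crossBit χ d a p q) + bn (crossBit χ d a p r) + bn (crossBit χ d a q r)) := by
  cases hval : χ a b c with
  | true =>
    have e2 : χ b c d = true := by rw [← h1]; exact hval
    have e3 : χ c d a = true := by rw [← h2]; exact e2
    have e4 : χ d a b = true := by rw [← h3]; exact e3
    exact block_local_pos hχ hnd hval e2 e3 e4
  | false =>
    have e2 : χ b c d = false := by rw [← h1]; exact hval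
    have e3 : χ c d a = false := by rw [← h2]; exact e2
    have e4 : χ d a b = false := by rw [← h3]; exact e3
    have hnd' := hnd
    simp only [List.nodup_cons, List.mem_cons, List.not_mem_nil, or_false, not_or,
      List.nodup_nil, not_false_eq_true, and_true] at hnd'
    obtain ⟨⟨ab, ac, ad, ap, aq, ar⟩, ⟨bc, bd, bp, bq, br⟩, ⟨cd, cp, cq, cr⟩, ⟨dp, dq, dr⟩,
      ⟨pq, pr⟩, qr⟩ := hnd'
    have nd : [a, d, c, b, p, q, r].Nodup := by
      simp only [List.nodup_cons, List.mem_cons, List.not_mem_nil, or_false, not_or,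
        List.nodup_nil, not_false_eq_true, and_true]
      exact ⟨⟨ad, ac, ab, ap, aq, ar⟩, ⟨Ne.symm cd, Ne.symm bd, dp, dq, dr⟩,
        ⟨Ne.symm bc, cp, cq, cr⟩, ⟨bp, bq, br⟩, ⟨pq, pr⟩, qr⟩
    have f1 : χ a d c = true := by
      rw [hχ.cyc a d c ad (Ne.symm cd) ac, hχ.anti c d a cd (Ne.symm ad) (Ne.symm ac), e3]; rfl
    have f2 : χ d c b = true := by
      rw [hχ.anti c d b cd (Ne.symm bd) (Ne.symm bc), ← hχ.cyc b c d bc cd bd, e2]; rfl
    have f3 : χ c b a = true := by
      rw [hχ.anti b c a bc (Ne.symm ac) (Ne.symm ab), ← hχ.cyc a b c ab bc ac, hval]; rfl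
    have f4 : χ b a d = true := by
      rw [hχ.anti a b d ab bd ad, ← hχ.cyc2 ab bd ad, e4]; rfl
    have hmain := block_local_pos hχ nd f1 f2 f3 f4
    rw [crossBit_swap_uv (u := d) (v := a) hχ (Ne.symm ad) ap dp aq dq,
      crossBit_swap_uv (u := d) (v := a) hχ (Ne.symm ad) ap dp ar dr,
      crossBit_swap_uv (u := d) (v := a) hχ (Ne.symm ad) aq dq ar dr,
      crossBit_swap_uv (u := c) (v := d) hχ cd dp cp dq cq,
      crossBit_swap_uv (u := c) (v := d) hχ cd dp cp dr cr,
      crossBit_swap_uv (u := c) (v := d) hχ cd dq cq dr cr,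
      crossBit_swap_uv (u := b) (v := c) hχ bc cp bp cq bq,
      crossBit_swap_uv (u := b) (v := c) hχ bc cp bp cr br,
      crossBit_swap_uv (u := b) (v := c) hχ bc cq bq cr br,
      crossBit_swap_uv (u := a) (v := b) hχ ab bp ap bq aq,
      crossBit_swap_uv (u := a) (v := b) hχ ab bp ap br ar,
      crossBit_swap_uv (u := a) (v := b) hχ ab bq aq br ar] at hmain
    omega

end

end Vale.Agent.P040
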