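import Vale.Agent.Lib.P040.Defs

/-!
The Kleitman step: a symmetric function on pairs whose sum on every triple is at least
`γ ∈ {1,2}` has total at least `γ d_n`.
-/

namespace Vale.Agent.P040

open Finset

theorem dd_step (k : ℕ) : dd (k + 2) = dd k + k := by
  unfold dd
  rcases Nat.even_or_odd' k with ⟨t, rfl | rfl⟩
  · rcases t with _ | t
    · simp
    · have h1 : (2 * (t + 1) + 2) / 2 = t + 2 := by omega
      have h2 : (2 * (t + 1) + 2 - 1) / 2 = t + 1 := by omega
      have h3 : (2 * (t + 1)) / 2 = t + 1 := by omega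
      have h4 : (2 * (t + 1) - 1) / 2 = t := by omega
      rw [h1, h2, h3, h4]
      ring
  · have h1 : (2 * t + 1 + 2) / 2 = t + 1 := by omega
    have h2 : (2 * t + 1 + 2 - 1) / 2 = t + 1 := by omega
    have h3 : (2 * t + 1) / 2 = t := by omega
    have h4 : (2 * t + 1 - 1) / 2 = t := by omega
    rw [h1, h2, h3, h4]
    ring

theorem four_dd_le (k : ℕ) : 4 * dd k + k ≤ k * k := by
  unfold dd
  rcases Nat.even_or_odd' k with ⟨t, rfl | rfl⟩
  · rcases t with _ | t
    · simp
    · have h3 : (2 * (t + 1)) / 2 = t + 1 := by omega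
      have h4 : (2 * (t + 1) - 1) / 2 = t := by omega
      rw [h3, h4]
      nlinarith
  · have h3 : (2 * t + 1) / 2 = t := by omega
    have h4 : (2 * t + 1 - 1) / 2 = t := by omega
    rw [h3, h4]
    nlinarith

/-- The Kleitman step on a finite set: `f` symmetric with zero diagonal, every triple of distinct
elements of `s` has `f`-sum at least `γ ≤ 2`; then the ordered double sum is at least `2 γ d_{|s|}`. -/
theorem kleitman {α : Type*} [DecidableEq α] (f : α → α → ℕ)
    (hsymm : ∀ x y, f x y = f y x) (hdiag : ∀ x, f x x = 0) (γ : ℕ) (hγ : γ ≤ 2) :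
    ∀ (N : ℕ) (s : Finset α), s.card ≤ N →
      (∀ x ∈ s, ∀ y ∈ s, ∀ z ∈ s, x ≠ y → y ≠ z → x ≠ z → γ ≤ f x y + f y z + f x z) →
      2 * γ * dd s.card ≤ ∑ x ∈ s, ∑ y ∈ s, f x y := by
  intro N
  induction N using Nat.strong_induction_on with
  | _ N ih =>
    intro s hs htri
    by_cases hzero : ∃ x ∈ s, ∃ y ∈ s, x ≠ y ∧ f x y = 0
    · obtain ⟨x, hx, y, hy, hxy, hf⟩ := hzero
      set s' := (s.erase x).erase y with hs'
      have hy' : y ∈ s.erase x := Finset.mem_erase.2 ⟨hxy.symm, hy⟩
      have hcard : s'.card + 2 = s.card := by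
        have h1 : (s.erase x).card + 1 = s.card := Finset.card_erase_add_one hx
        have h2 : s'.card + 1 = (s.erase x).card := Finset.card_erase_add_one hy'
        omega
      have hsub : s' ⊆ s := fun z hz =>
        Finset.mem_of_mem_erase (Finset.mem_of_mem_erase hz)
      have hx' : x ∉ s' := fun h =>
        (Finset.mem_erase.1 (Finset.mem_of_mem_erase h)).1 rfl
      have hy'' : y ∉ s' := fun h => (Finset.mem_erase.1 h).1 rfl
      have hrec := ih s'.card (by omega) s' le_rfl (fun a ha b hb c hc =>
        htri a (hsub ha) b (hsub hb) c (hsub hc))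
      -- decompose the double sum
      have hdecomp : ∀ g : α → ℕ, ∑ z ∈ s, g z = g x + g y + ∑ z ∈ s', g z := by
        intro g
        rw [← Finset.add_sum_erase s g hx, ← Finset.add_sum_erase (s.erase x) g hy']
        ring
      have hsum : ∑ a ∈ s, ∑ b ∈ s, f a b =
          ∑ a ∈ s', ∑ b ∈ s', f a b + 2 * ∑ z ∈ s', (f x z + f y z) := by
        have hinner : ∀ a, ∑ b ∈ s, f a b = f a x + f a y + ∑ b ∈ s', f a b :=
          fun a => hdecomp (f a)
        rw [hdecomp (fun a => ∑ b ∈ s, f a b)]
        simp only [hinner]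
        have h2 : ∑ a ∈ s', (f a x + f a y + ∑ b ∈ s', f a b) =
            ∑ a ∈ s', (f x a + f y a) + ∑ a ∈ s', ∑ b ∈ s', f a b := by
          rw [← Finset.sum_add_distrib]
          refine Finset.sum_congr rfl fun a _ => ?_
          rw [hsymm a x, hsymm a y]
        rw [h2, hdiag x, hdiag y, hsymm y x, hf]
        rw [Finset.sum_add_distrib]
        ring
      have hlow : γ * s'.card ≤ ∑ z ∈ s', (f x z + f y z) := by
        have : ∀ z ∈ s', γ ≤ f x z + f y z := by
          intro z hz
          have hzs := hsub hz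
          have hxz : x ≠ z := fun h => hx' (h ▸ hz)
          have hyz : y ≠ z := fun h => hy'' (h ▸ hz)
          have := htri x hx y hy z hzs hxy hyz hxz
          omega
        calc γ * s'.card = ∑ _z ∈ s', γ := by simp [mul_comm]
          _ ≤ _ := Finset.sum_le_sum this
      rw [hsum, ← hcard, dd_step]
      nlinarith
    · push_neg at hzero
      have hge : ∀ x ∈ s, ∀ y ∈ s, x ≠ y → 1 ≤ f x y := by
        intro x hx y hy hxy
        exact Nat.one_le_iff_ne_zero.2 (hzero x hx y hy hxy)
      have hrow : ∀ x ∈ s, s.card - 1 ≤ ∑ y ∈ s, f x y := by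
        intro x hx
        have h1 : ((s.erase x).card : ℕ) = s.card - 1 := Finset.card_erase_of_mem hx
        rw [← Finset.add_sum_erase s (f x) hx, ← h1]
        have : (s.erase x).card = ∑ _y ∈ s.erase x, 1 := by simp
        rw [this]
        have h2 : ∑ _y ∈ s.erase x, 1 ≤ ∑ y ∈ s.erase x, f x y :=
          Finset.sum_le_sum fun y hy =>
            hge x hx y (Finset.mem_of_mem_erase hy) (Finset.ne_of_mem_erase hy).symm
        omega
      have htot : s.card * (s.card - 1) ≤ ∑ x ∈ s, ∑ y ∈ s, f x y := by
        calc s.card * (s.card - 1) = ∑ _x ∈ s, (s.card - 1) := by simp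
          _ ≤ _ := Finset.sum_le_sum hrow
      have h4 := four_dd_le s.card
      have hsub : s.card * (s.card - 1) + s.card = s.card * s.card := by
        rcases Nat.eq_zero_or_pos s.card with h | h
        · simp [h]
        · obtain ⟨t, ht⟩ : ∃ t, s.card = t + 1 := ⟨s.card - 1, by omega⟩
          rw [ht]; simp; ring
      have hγ' : 2 * γ * dd s.card ≤ 4 * dd s.card := by
        have : 2 * γ ≤ 4 := by omega
        exact Nat.mul_le_mul_right _ this
      generalize dd s.card = D at h4 hγ' ⊢
      generalize (∑ x ∈ s, ∑ y ∈ s, f x y) = T at htot ⊢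
      generalize s.card * (s.card - 1) = A at htot hsub
      generalize s.card * s.card = C at hsub h4
      omega

end Vale.Agent.P040
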