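import Vale.Agent.Lib.P040.Local
import Vale.Agent.Lib.P040.Turan

/-!
Lifting the local inequalities with the Kleitman step and summing over a family of pairs.
-/

namespace Vale.Agent.P040

open Finset

section
variable {m n : ℕ} (χ : Fin m ⊕ Fin n → Fin m ⊕ Fin n → Fin m ⊕ Fin n → Bool)

/-- Indicator of a tuple of crossing type with two distinct reds and two distinct blues. -/
def cb (x y : Fin m) (j j' : Fin n) : ℕ :=
  if x ≠ y ∧ j ≠ j' ∧ crossBit χ (Sum.inl x) (Sum.inl y) (Sum.inr j) (Sum.inr j') = true then 1 else 0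

theorem cb_eq (x y : Fin m) (j j' : Fin n) (hxy : x ≠ y) (hj : j ≠ j') :
    cb χ x y j j' = bn (crossBit χ (Sum.inl x) (Sum.inl y) (Sum.inr j) (Sum.inr j')) := by
  unfold cb
  cases h : crossBit χ (Sum.inl x) (Sum.inl y) (Sum.inr j) (Sum.inr j') <;> simp [hxy, hj]

theorem cb_symm_red (hχ : IsChi χ) (x y : Fin m) (j j' : Fin n) :
    cb χ x y j j' = cb χ y x j j' := by
  by_cases hxy : x = y
  · subst hxy; rfl
  by_cases hj : j = j'
  · subst hj; simp [cb]
  rw [cb_eq χ x y j j' hxy hj, cb_eq χ y x j j' (Ne.symm hxy) hj,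
    crossBit_swap_uv hχ (u := Sum.inl x) (v := Sum.inl y) (x := Sum.inr j) (y := Sum.inr j')
      (by simpa using hxy) (by simp) (by simp) (by simp) (by simp)]

theorem cb_symm_blue (hχ : IsChi χ) (x y : Fin m) (j j' : Fin n) :
    cb χ x y j j' = cb χ x y j' j := by
  by_cases hj : j = j'
  · subst hj; rfl
  by_cases hxy : x = y
  · subst hxy; simp [cb]
  rw [cb_eq χ x y j j' hxy hj, cb_eq χ x y j' j hxy (Ne.symm hj),
    crossBit_swap_xy hχ (u := Sum.inl x) (v := Sum.inl y) (x := Sum.inr j) (y := Sum.inr j')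
      (by simpa using hj) (by simp) (by simp) (by simp) (by simp)]

/-- Ordered sum over pairs of blues. -/
def gg (x y : Fin m) : ℕ := ∑ j, ∑ j', cb χ x y j j'

theorem gg_symm (hχ : IsChi χ) (x y : Fin m) : gg χ x y = gg χ y x := by
  unfold gg
  exact Finset.sum_congr rfl fun j _ => Finset.sum_congr rfl fun j' _ => cb_symm_red χ hχ x y j j'

theorem gg_diag (x : Fin m) : gg χ x x = 0 := by
  simp [gg, cb]

/-- Lifted block inequality. -/
theorem block_bound (hχ : IsChi χ) {a b c d : Fin m} (ab : a ≠ b) (ac : a ≠ c) (ad : a ≠ d)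
    (bc : b ≠ c) (bd : b ≠ d) (cd : c ≠ d)
    (h1 : χ (Sum.inl a) (Sum.inl b) (Sum.inl c) = χ (Sum.inl b) (Sum.inl c) (Sum.inl d))
    (h2 : χ (Sum.inl b) (Sum.inl c) (Sum.inl d) = χ (Sum.inl c) (Sum.inl d) (Sum.inl a))
    (h3 : χ (Sum.inl c) (Sum.inl d) (Sum.inl a) = χ (Sum.inl d) (Sum.inl a) (Sum.inl b)) :
    4 * dd n ≤ gg χ a b + gg χ b c + gg χ c d + gg χ d a := by
  have key := kleitman (fun j j' : Fin n => cb χ a b j j' + cb χ b c j j' + cb χ c d j j' + cb χ d a j j')
    (by
      intro x y
      rw [cb_symm_blue χ hχ a b x y, cb_symm_blue χ hχ b c x y, cb_symm_blue χ hχ c d x y,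
        cb_symm_blue χ hχ d a x y])
    (by
      intro x
      simp [cb]) 2 le_rfl (Finset.univ : Finset (Fin n)).card Finset.univ le_rfl (by
      intro x _ y _ z _ hxy hyz hxz
      have hnd : ([Sum.inl a, Sum.inl b, Sum.inl c, Sum.inl d, Sum.inr x, Sum.inr y, Sum.inr z] :
          List (Fin m ⊕ Fin n)).Nodup := by
        simp [ab, ac, ad, bc, bd, cd, hxy, hyz, hxz]
      have hl := block_local hχ hnd h1 h2 h3
      rw [cb_eq χ a b x y ab hxy, cb_eq χ b c x y bc hxy, cb_eq χ c d x y cd hxy,
        cb_eq χ d a x y (Ne.symm ad) hxy, cb_eq χ a b y z ab hyz, cb_eq χ b c y z bc hyz,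
        cb_eq χ c d y z cd hyz, cb_eq χ d a y z (Ne.symm ad) hyz, cb_eq χ a b x z ab hxz,
        cb_eq χ b c x z bc hxz, cb_eq χ c d x z cd hxz, cb_eq χ d a x z (Ne.symm ad) hxz]
      omega)
  simp only [Finset.card_univ, Fintype.card_fin] at key
  unfold gg
  simp only [Finset.sum_add_distrib] at key
  linarith

/-- Lifted triangle inequality. -/
theorem k33_bound (hχ : IsChi χ) {w a c : Fin m} (wa : w ≠ a) (wc : w ≠ c) (ac : a ≠ c) :
    2 * dd n ≤ gg χ w a + gg χ a c + gg χ w c := by
  have key := kleitman (fun j j' : Fin n => cb χ w a j j' + cb χ a c j j' + cb χ w c j j')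
    (by
      intro x y
      rw [cb_symm_blue χ hχ w a x y, cb_symm_blue χ hχ a c x y, cb_symm_blue χ hχ w c x y])
    (by
      intro x
      simp [cb]) 1 (by norm_num) (Finset.univ : Finset (Fin n)).card Finset.univ le_rfl (by
      intro x _ y _ z _ hxy hyz hxz
      have hnd : ([Sum.inl w, Sum.inl a, Sum.inl c, Sum.inr x, Sum.inr y, Sum.inr z] :
          List (Fin m ⊕ Fin n)).Nodup := by
        simp [wa, wc, ac, hxy, hyz, hxz]
      have hl := k33_local hχ hnd
      rw [cb_eq χ w a x y wa hxy, cb_eq χ a c x y ac hxy, cb_eq χ w c x y wc hxy,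
        cb_eq χ w a y z wa hyz, cb_eq χ a c y z ac hyz, cb_eq χ w c y z wc hyz,
        cb_eq χ w a x z wa hxz, cb_eq χ a c x z ac hxz, cb_eq χ w c x z wc hxz]
      omega)
  simp only [Finset.card_univ, Fintype.card_fin] at key
  unfold gg
  simp only [Finset.sum_add_distrib] at key
  linarith

end

/-- A sum over an injective image is at most the full sum. -/
theorem sum_comp_le {α β : Type*} [Fintype α] [Fintype β] [DecidableEq β] (p : α → β)
    (hp : Function.Injective p) (F : β → ℕ) : ∑ a, F (p a) ≤ ∑ b, F b := by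
  have h1 : ∑ a, F (p a) = ∑ b ∈ Finset.univ.image p, F b := by
    rw [Finset.sum_image (fun x _ y _ h => hp h)]
  rw [h1]
  exact Finset.sum_le_sum_of_subset (Finset.subset_univ _)

theorem sum2_comp_le {α β : Type*} [Fintype α] [Fintype β] [DecidableEq β] (p : α → β)
    (hp : Function.Injective p) (G : β → β → ℕ) :
    ∑ a, ∑ b, G (p a) (p b) ≤ ∑ x, ∑ y, G x y := by
  calc ∑ a, ∑ b, G (p a) (p b) ≤ ∑ a, ∑ y, G (p a) y :=
        Finset.sum_le_sum fun a _ => sum_comp_le p hp (G (p a))
    _ ≤ ∑ x, ∑ y, G x y := sum_comp_le p hp (fun x => ∑ y, G x y)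

/-- Double sum over a product with `Bool`. -/
theorem sum_pairs {k : ℕ} {β : Type*} (p : Fin k × Bool → β) (G : β → β → ℕ) :
    ∑ u, ∑ v, G (p u) (p v) =
      ∑ i, ∑ i', (G (p (i, true)) (p (i', true)) + G (p (i, true)) (p (i', false)) +
        (G (p (i, false)) (p (i', true)) + G (p (i, false)) (p (i', false)))) := by
  rw [Fintype.sum_prod_type]
  refine Finset.sum_congr rfl fun i _ => ?_
  rw [Fintype.sum_bool]
  simp only [Fintype.sum_prod_type, Fintype.sum_bool, Finset.sum_add_distrib]

theorem sum_offdiag {k : ℕ} (C : ℕ) :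
    ∑ i : Fin k, ∑ i' : Fin k, (if i ≠ i' then C else 0) = k * (k - 1) * C := by
  have h : ∀ i : Fin k, ∑ i' : Fin k, (if i ≠ i' then C else 0) = (k - 1) * C := by
    intro i
    rw [Finset.sum_ite, Finset.sum_const_zero, add_zero, Finset.sum_const, smul_eq_mul]
    congr 1
    rw [Finset.filter_ne, Finset.card_erase_of_mem (Finset.mem_univ i), Finset.card_univ,
      Fintype.card_fin]
  simp only [h, Finset.sum_const, Finset.card_univ, Fintype.card_fin, smul_eq_mul]
  ring

section
variable {m n : ℕ} (χ : Fin m ⊕ Fin n → Fin m ⊕ Fin n → Fin m ⊕ Fin n → Bool)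

/-- Even part of the summation. -/
theorem total_even (hχ : IsChi χ) {k : ℕ} (p : Fin k × Bool → Fin m) (hp : Function.Injective p)
    (hconv : ∀ i i', i ≠ i' →
      χ (Sum.inl (p (i, false))) (Sum.inl (p (i', false))) (Sum.inl (p (i, true))) =
        χ (Sum.inl (p (i', false))) (Sum.inl (p (i, true))) (Sum.inl (p (i', true))) ∧
      χ (Sum.inl (p (i', false))) (Sum.inl (p (i, true))) (Sum.inl (p (i', true))) =
        χ (Sum.inl (p (i, true))) (Sum.inl (p (i', true))) (Sum.inl (p (i, false))) ∧
      χ (Sum.inl (p (i, true))) (Sum.inl (p (i', true))) (Sum.inl (p (i, false))) =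
        χ (Sum.inl (p (i', true))) (Sum.inl (p (i, false))) (Sum.inl (p (i', false)))) :
    k * (k - 1) * (4 * dd n) ≤ ∑ x, ∑ y, gg χ x y := by
  have h1 := sum2_comp_le p hp (gg χ)
  rw [sum_pairs] at h1
  refine le_trans ?_ h1
  rw [← sum_offdiag]
  refine Finset.sum_le_sum fun i _ => Finset.sum_le_sum fun i' _ => ?_
  split_ifs with hne
  · obtain ⟨h1, h2, h3⟩ := hconv i i' hne
    have inj : ∀ {s s' : Bool}, p (i, s) ≠ p (i', s') := by
      intro s s' h
      exact hne (congrArg Prod.fst (hp h))
    have ne1 : p (i, false) ≠ p (i, true) := by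
      intro h
      have := congrArg Prod.snd (hp h)
      simp at this
    have ne2 : p (i', false) ≠ p (i', true) := by
      intro h
      have := congrArg Prod.snd (hp h)
      simp at this
    have := block_bound χ hχ (a := p (i, false)) (b := p (i', false)) (c := p (i, true))
      (d := p (i', true)) inj ne1 inj inj.symm ne2 inj h1 h2 h3
    rw [gg_symm χ hχ (p (i', false)) (p (i, true)), gg_symm χ hχ (p (i', true)) (p (i, false))] at this
    omega
  · exact Nat.zero_le _

/-- Odd part of the summation. -/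
theorem total_odd (hχ : IsChi χ) {k : ℕ} (p : Fin k × Bool → Fin m) (hp : Function.Injective p)
    (w : Fin m) (hw : ∀ u, p u ≠ w)
    (hconv : ∀ i i', i ≠ i' →
      χ (Sum.inl (p (i, false))) (Sum.inl (p (i', false))) (Sum.inl (p (i, true))) =
        χ (Sum.inl (p (i', false))) (Sum.inl (p (i, true))) (Sum.inl (p (i', true))) ∧
      χ (Sum.inl (p (i', false))) (Sum.inl (p (i, true))) (Sum.inl (p (i', true))) =
        χ (Sum.inl (p (i, true))) (Sum.inl (p (i', true))) (Sum.inl (p (i, false))) ∧
      χ (Sum.inl (p (i, true))) (Sum.inl (p (i', true))) (Sum.inl (p (i, false))) =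
        χ (Sum.inl (p (i', true))) (Sum.inl (p (i, false))) (Sum.inl (p (i', false)))) :
    k * k * (4 * dd n) ≤ ∑ x, ∑ y, gg χ x y := by
  classical
  let p' : Option (Fin k × Bool) → Fin m := fun o => o.elim w p
  have hp' : Function.Injective p' := by
    intro a b hab
    cases a with
    | none =>
      cases b with
      | none => rfl
      | some b => exact absurd hab.symm (hw b)
    | some a =>
      cases b with
      | none => exact absurd hab (hw a)
      | some b => exact congrArg some (hp hab)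
  have h1 := sum2_comp_le p' hp' (gg χ)
  refine le_trans ?_ h1
  simp only [Fintype.sum_option]
  have e1 : ∀ u : Fin k × Bool, gg χ (p' (some u)) (p' none) = gg χ w (p u) := by
    intro u
    exact gg_symm χ hχ _ _
  simp only [e1, Finset.sum_add_distrib]
  have e2 : ∑ u, ∑ v, gg χ (p' (some u)) (p' (some v)) = ∑ u, ∑ v, gg χ (p u) (p v) := rfl
  have e3 : ∑ v, gg χ (p' none) (p' (some v)) = ∑ v, gg χ w (p v) := rfl
  rw [e2, e3, sum_pairs]
  have e4 : ∑ v, gg χ w (p v) = ∑ i, (gg χ w (p (i, true)) + gg χ w (p (i, false))) := by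
    rw [Fintype.sum_prod_type]
    refine Finset.sum_congr rfl fun i _ => ?_
    rw [Fintype.sum_bool]
  rw [e4]
  -- a pointwise bound
  have key : ∀ i i' : Fin k, 4 * dd n ≤
      (gg χ (p (i, true)) (p (i', true)) + gg χ (p (i, true)) (p (i', false)) +
        (gg χ (p (i, false)) (p (i', true)) + gg χ (p (i, false)) (p (i', false)))) +
      (if i = i' then 2 * (gg χ w (p (i, true)) + gg χ w (p (i, false))) else 0) := by
    intro i i'
    by_cases hne : i = i'
    · subst hne
      simp only [if_true]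
      have ne1 : p (i, true) ≠ p (i, false) := by
        intro h
        have := congrArg Prod.snd (hp h)
        simp at this
      have := k33_bound χ (n := n) hχ (w := w) (a := p (i, true)) (c := p (i, false))
        (hw _).symm (hw _).symm ne1
      rw [gg_symm χ hχ (p (i, false)) (p (i, true))]
      have z1 := gg_diag χ (p (i, true))
      have z2 := gg_diag χ (p (i, false))
      omega
    · obtain ⟨h1, h2, h3⟩ := hconv i i' hne
      have inj : ∀ {s s' : Bool}, p (i, s) ≠ p (i', s') := by
        intro s s' h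
        exact hne (congrArg Prod.fst (hp h))
      have ne1 : p (i, false) ≠ p (i, true) := by
        intro h
        have := congrArg Prod.snd (hp h)
        simp at this
      have ne2 : p (i', false) ≠ p (i', true) := by
        intro h
        have := congrArg Prod.snd (hp h)
        simp at this
      have := block_bound χ hχ (a := p (i, false)) (b := p (i', false)) (c := p (i, true))
        (d := p (i', true)) inj ne1 inj inj.symm ne2 inj h1 h2 h3
      rw [gg_symm χ hχ (p (i', false)) (p (i, true)), gg_symm χ hχ (p (i', true)) (p (i, false))] at this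
      simp only [if_neg hne]
      omega
  have hsum : ∑ i : Fin k, ∑ i' : Fin k, (4 * dd n) ≤ ∑ i : Fin k, ∑ i' : Fin k,
      ((gg χ (p (i, true)) (p (i', true)) + gg χ (p (i, true)) (p (i', false)) +
        (gg χ (p (i, false)) (p (i', true)) + gg χ (p (i, false)) (p (i', false)))) +
      (if i = i' then 2 * (gg χ w (p (i, true)) + gg χ w (p (i, false))) else 0)) :=
    Finset.sum_le_sum fun i _ => Finset.sum_le_sum fun i' _ => key i i'
  simp only [Finset.sum_const, Finset.card_univ, Fintype.card_fin, smul_eq_mul,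
    Finset.sum_add_distrib, Finset.sum_ite_eq, Finset.mem_univ, if_true] at hsum
  have e5 : ∑ i : Fin k, 2 * (gg χ w (p (i, true)) + gg χ w (p (i, false))) =
      2 * ∑ i : Fin k, (gg χ w (p (i, true)) + gg χ w (p (i, false))) := by
    rw [Finset.mul_sum]
  rw [e5] at hsum
  simp only [Finset.sum_add_distrib] at hsum ⊢
  have e6 : k * (k * (4 * dd n)) = k * k * (4 * dd n) := by ring
  rw [e6] at hsum
  omega

end

end Vale.Agent.P040
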