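import Vale.Agent.Lib.P040.TwoPolyD

/-!
Two convex polygons `P`, `Q` with `n+3` and `m+3` vertices in general position: at least
`(n+1)(m+1)` pairs (side of `P`, side of `Q`) are in crossing position (each line misses the other
segment).
-/

namespace Vale.Agent.P040

open Finset

section two
variable {n m : ℕ} {P : Fin (n + 3) → ℝ × ℝ} {Q : Fin (m + 3) → ℝ × ℝ}

/-- Separating side from Helly's theorem. -/
theorem sep_side (hP : IsConvexPoly P) (hQ : IsConvexPoly Q) (hg : GP P Q)
    (hemp : crossSet P Q = ∅) (hQout : ∀ j, ∃ i, det3 (P i) (P (i + 1)) (Q j) < 0)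
    (hPout : ∀ i, ∃ j, det3 (Q j) (Q (j + 1)) (P i) < 0) :
    (∃ i, ∀ j, det3 (P i) (P (i + 1)) (Q j) < 0) ∨ (∃ j, ∀ i, det3 (Q j) (Q (j + 1)) (P i) < 0) := by
  classical
  by_contra hcon
  push Not at hcon
  obtain ⟨hA, hB⟩ := hcon
  let F : Fin (n + 3) ⊕ Fin (m + 3) → Set (ℝ × ℝ) := fun s =>
    match s with
    | Sum.inl i => {z | 0 ≤ det3 (P i) (P (i + 1)) z}
    | Sum.inr j => {z | 0 ≤ det3 (Q j) (Q (j + 1)) z}
  have hconv : ∀ s ∈ (univ : Finset (Fin (n + 3) ⊕ Fin (m + 3))), Convex ℝ (F s) := by
    intro s _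
    intro x hx y hy a b ha hb hab
    rcases s with i | j
    · change 0 ≤ det3 (P i) (P (i + 1)) (a • x + b • y)
      rw [det3_aff _ _ _ _ _ _ hab]
      have h1 : 0 ≤ det3 (P i) (P (i + 1)) x := hx
      have h2 : 0 ≤ det3 (P i) (P (i + 1)) y := hy
      positivity
    · change 0 ≤ det3 (Q j) (Q (j + 1)) (a • x + b • y)
      rw [det3_aff _ _ _ _ _ _ hab]
      have h1 : 0 ≤ det3 (Q j) (Q (j + 1)) x := hx
      have h2 : 0 ≤ det3 (Q j) (Q (j + 1)) y := hy
      positivity
  have hrank : Module.finrank ℝ (ℝ × ℝ) = 2 := by simp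
  have hinter : ∀ I ⊆ (univ : Finset (Fin (n + 3) ⊕ Fin (m + 3))),
      I.card ≤ Module.finrank ℝ (ℝ × ℝ) + 1 → (⋂ s ∈ I, F s).Nonempty := by
    intro I _ hI
    rw [hrank] at hI
    -- one of the two colours occurs at most once
    by_cases hc : (∀ j j', Sum.inr j ∈ I → Sum.inr j' ∈ I → j = j')
    · -- witness in P
      have : ∃ a : Fin (n + 3), ∀ j, Sum.inr j ∈ I → 0 ≤ det3 (Q j) (Q (j + 1)) (P a) := by
        by_cases hex : ∃ j, Sum.inr j ∈ I
        · obtain ⟨j, hj⟩ := hex
          obtain ⟨a, ha⟩ := hB j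
          refine ⟨a, fun j' hj' => ?_⟩
          rw [hc j' j hj' hj]
          exact ha
        · push Not at hex
          exact ⟨0, fun j hj => absurd hj (hex j)⟩
      obtain ⟨a, ha⟩ := this
      refine ⟨P a, ?_⟩
      simp only [Set.mem_iInter]
      intro s hs
      rcases s with i | j
      · exact hP.inP a i
      · exact ha j hs
    · have hc' : ∀ i i', Sum.inl i ∈ I → Sum.inl i' ∈ I → i = i' := by
        push Not at hc
        obtain ⟨j, j', hj, hj', hne⟩ := hc
        intro i i' hi hi'
        by_contra hii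
        have hsub : ({Sum.inl i, Sum.inl i', Sum.inr j, Sum.inr j'} :
            Finset (Fin (n + 3) ⊕ Fin (m + 3))) ⊆ I := by
          intro z hz
          simp only [mem_insert, mem_singleton] at hz
          rcases hz with rfl | rfl | rfl | rfl <;> assumption
        have hcard : ({Sum.inl i, Sum.inl i', Sum.inr j, Sum.inr j'} :
            Finset (Fin (n + 3) ⊕ Fin (m + 3))).card = 4 := by
          rw [Finset.card_insert_of_notMem, Finset.card_insert_of_notMem,
            Finset.card_insert_of_notMem, Finset.card_singleton]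
          · simpa using hne
          · simp
          · simpa using hii
        have := Finset.card_le_card hsub
        omega
      have : ∃ a : Fin (m + 3), ∀ i, Sum.inl i ∈ I → 0 ≤ det3 (P i) (P (i + 1)) (Q a) := by
        by_cases hex : ∃ i, Sum.inl i ∈ I
        · obtain ⟨i, hi⟩ := hex
          obtain ⟨a, ha⟩ := hA i
          refine ⟨a, fun i' hi' => ?_⟩
          rw [hc' i' i hi' hi]
          exact ha
        · push Not at hex
          exact ⟨0, fun i hi => absurd hi (hex i)⟩
      obtain ⟨a, ha⟩ := this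
      refine ⟨Q a, ?_⟩
      simp only [Set.mem_iInter]
      intro s hs
      rcases s with i | j
      · exact ha i hs
      · exact hQ.inP a j
  obtain ⟨z, hz⟩ := Convex.helly_theorem' (𝕜 := ℝ) hconv hinter
  simp only [Set.mem_iInter, mem_univ, true_imp_iff] at hz
  have hzP : InP P z := fun i => hz (Sum.inl i)
  have hzQ : InP Q z := fun j => hz (Sum.inr j)
  -- the exit from Q towards a vertex of P
  obtain ⟨t, -, e, he1, he2⟩ := hQ.exit hzQ (hPout 0)
  have hin : InP P e := InP.of_segment hzP (hP.inP 0) he1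
  obtain ⟨i0, hi0⟩ := hQout t
  have h0 : ∃ i, det3 (P i) (P (i + 1)) (Q (idx t 0)) < 0 := ⟨i0, hi0⟩
  have hl : ∃ i, det3 (P i) (P (i + 1)) (Q (idx t (m + 3))) < 0 := by
    rw [idx_full]; exact ⟨i0, hi0⟩
  obtain ⟨k1, k2, i1, i2, -, -, a1, -, -⟩ := chain_two hP hg t (l := m + 3) (k := 0) le_rfl (by omega)
    h0 hl (by simpa [idx] using he2) hin
  rw [hemp] at a1
  simp at a1

/-- Numerical core. -/
theorem gain (hP : IsConvexPoly P) (hQ : IsConvexPoly Q)
    (hgp : NoThreeCollinear (Sum.elim P Q))
    (fa : Fin (n + 3) → ℕ) (fb : Fin (m + 3) → ℕ)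
    (hfa : ∀ i, (∀ j, 0 < det3 (P i) (P (i + 1)) (Q j)) ∨ (∀ j, det3 (P i) (P (i + 1)) (Q j) < 0) →
      2 ≤ fa i)
    (hfb : ∀ j, (∀ i, 0 < det3 (Q j) (Q (j + 1)) (P i)) ∨ (∀ i, det3 (Q j) (Q (j + 1)) (P i) < 0) →
      2 ≤ fb j) :
    4 ≤ ∑ i, fa i + ∑ j, fb j + (crossSet P Q).card := by
  classical
  have hg := gp_of_ncl hgp
  have two_le : ∀ {α : Type} [Fintype α] [DecidableEq α] (f : α → ℕ) (x y : α), x ≠ y →
      f x + f y ≤ ∑ z, f z := by
    intro α _ _ f x y hxy
    have h1 : ∑ z ∈ ({x, y} : Finset α), f z ≤ ∑ z, f z :=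
      Finset.sum_le_sum_of_subset (Finset.subset_univ _)
    rw [Finset.sum_pair hxy] at h1
    exact h1
  have one_le : ∀ {α : Type} [Fintype α] (f : α → ℕ) (x : α), f x ≤ ∑ z, f z := by
    intro α _ f x
    exact Finset.single_le_sum (fun _ _ => Nat.zero_le _) (mem_univ x)
  rcases hull_or_four hP hQ hgp with ⟨i, hi⟩ | ⟨j, hj⟩ | h4
  · -- a hull side of P
    have h1 := hfa i (Or.inl hi)
    have h2 := one_le fa i
    by_cases hne : (crossSet P Q).Nonempty
    · have := two_of_cross hP hg hne
      omega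
    · rw [Finset.not_nonempty_iff_eq_empty] at hne
      by_cases hin1 : ∃ j, InP P (Q j)
      · obtain ⟨j, hj⟩ := hin1
        have hall : ∀ i j, 0 < det3 (P i) (P (i + 1)) (Q j) := by
          intro i' j'
          have h3 := nested_of_empty hP hg hne hj j' i'
          exact lt_of_le_of_ne h3 (hg.pq _ _ _ (fin_succ_ne _).symm).symm
        have a1 := hfa 0 (Or.inl (hall 0))
        have a2 := hfa 1 (Or.inl (hall 1))
        have a3 := two_le fa 0 1 (by
          intro h
          have := fin_succ_ne (0 : Fin (n + 3))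
          simp only [zero_add] at this
          exact this h.symm)
        omega
      · by_cases hin2 : ∃ i, InP Q (P i)
        · obtain ⟨i', hi'⟩ := hin2
          have hne' : crossSet Q P = ∅ := by
            rw [Finset.eq_empty_iff_forall_notMem] at hne ⊢
            intro t ht
            apply hne (t.2, t.1)
            rw [mem_crossSet] at ht ⊢
            exact ⟨ht.2, ht.1⟩
          have hall : ∀ i j, 0 < det3 (Q j) (Q (j + 1)) (P i) := by
            intro i1 j1
            have h3 := nested_of_empty hQ hg.symm hne' hi' i1 j1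
            exact lt_of_le_of_ne h3 (hg.qp _ _ _ (fin_succ_ne _).symm).symm
          have a1 := hfb 0 (Or.inl (hall · 0))
          have a2 := hfb 1 (Or.inl (hall · 1))
          have a3 := two_le fb 0 1 (by
            intro h
            have := fin_succ_ne (0 : Fin (m + 3))
            simp only [zero_add] at this
            exact this h.symm)
          omega
        · push Not at hin1 hin2
          have hQout : ∀ j, ∃ i, det3 (P i) (P (i + 1)) (Q j) < 0 := by
            intro j
            by_contra hc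
            push Not at hc
            exact hin1 j hc
          have hPout : ∀ i, ∃ j, det3 (Q j) (Q (j + 1)) (P i) < 0 := by
            intro i
            by_contra hc
            push Not at hc
            exact hin2 i hc
          rcases sep_side hP hQ hg hne hQout hPout with ⟨i', hi'⟩ | ⟨j', hj'⟩
          · have hii : i ≠ i' := by
              intro h
              subst h
              exact absurd (hi 0) (not_lt.2 (hi' 0).le)
            have a1 := hfa i' (Or.inr hi')
            have a2 := two_le fa i i' hii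
            omega
          · have a1 := hfb j' (Or.inr hj')
            have a2 := one_le fb j'
            omega
  · -- a hull side of Q
    have h1 := hfb j (Or.inl hj)
    have h2 := one_le fb j
    by_cases hne : (crossSet P Q).Nonempty
    · have := two_of_cross hP hg hne
      omega
    · rw [Finset.not_nonempty_iff_eq_empty] at hne
      by_cases hin1 : ∃ j, InP P (Q j)
      · obtain ⟨j1, hj1⟩ := hin1
        have hall : ∀ i j, 0 < det3 (P i) (P (i + 1)) (Q j) := by
          intro i' j'
          have h3 := nested_of_empty hP hg hne hj1 j' i'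
          exact lt_of_le_of_ne h3 (hg.pq _ _ _ (fin_succ_ne _).symm).symm
        have a1 := hfa 0 (Or.inl (hall 0))
        have a2 := hfa 1 (Or.inl (hall 1))
        have a3 := two_le fa 0 1 (by
          intro h
          have := fin_succ_ne (0 : Fin (n + 3))
          simp only [zero_add] at this
          exact this h.symm)
        omega
      · by_cases hin2 : ∃ i, InP Q (P i)
        · obtain ⟨i', hi'⟩ := hin2
          have hne' : crossSet Q P = ∅ := by
            rw [Finset.eq_empty_iff_forall_notMem] at hne ⊢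
            intro t ht
            apply hne (t.2, t.1)
            rw [mem_crossSet] at ht ⊢
            exact ⟨ht.2, ht.1⟩
          have hall : ∀ i j, 0 < det3 (Q j) (Q (j + 1)) (P i) := by
            intro i1 j1
            have h3 := nested_of_empty hQ hg.symm hne' hi' i1 j1
            exact lt_of_le_of_ne h3 (hg.qp _ _ _ (fin_succ_ne _).symm).symm
          have a1 := hfb 0 (Or.inl (hall · 0))
          have a2 := hfb 1 (Or.inl (hall · 1))
          have a3 := two_le fb 0 1 (by
            intro h
            have := fin_succ_ne (0 : Fin (m + 3))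
            simp only [zero_add] at this
            exact this h.symm)
          omega
        · push Not at hin1 hin2
          have hQout : ∀ j, ∃ i, det3 (P i) (P (i + 1)) (Q j) < 0 := by
            intro j
            by_contra hc
            push Not at hc
            exact hin1 j hc
          have hPout : ∀ i, ∃ j, det3 (Q j) (Q (j + 1)) (P i) < 0 := by
            intro i
            by_contra hc
            push Not at hc
            exact hin2 i hc
          rcases sep_side hP hQ hg hne hQout hPout with ⟨i', hi'⟩ | ⟨j', hj'⟩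
          · have a1 := hfa i' (Or.inr hi')
            have a2 := one_le fa i'
            omega
          · have hjj : j ≠ j' := by
              intro h
              subst h
              exact absurd (hj 0) (not_lt.2 (hj' 0).le)
            have a1 := hfb j' (Or.inr hj')
            have a2 := two_le fb j j' hjj
            omega
  · omega

/-- The two polygon inequality. -/
theorem two_poly (hP : IsConvexPoly P) (hQ : IsConvexPoly Q)
    (hgp : NoThreeCollinear (Sum.elim P Q)) :
    (n + 1) * (m + 1) ≤ ((univ : Finset (Fin (n + 3) × Fin (m + 3))).filter fun t =>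
      0 < det3 (P t.1) (P (t.1 + 1)) (Q t.2) * det3 (P t.1) (P (t.1 + 1)) (Q (t.2 + 1)) ∧
      0 < det3 (Q t.2) (Q (t.2 + 1)) (P t.1) * det3 (Q t.2) (Q (t.2 + 1)) (P (t.1 + 1))).card := by
  classical
  have hg := gp_of_ncl hgp
  set Good := (univ : Finset (Fin (n + 3) × Fin (m + 3))).filter fun t =>
      0 < det3 (P t.1) (P (t.1 + 1)) (Q t.2) * det3 (P t.1) (P (t.1 + 1)) (Q (t.2 + 1)) ∧
      0 < det3 (Q t.2) (Q (t.2 + 1)) (P t.1) * det3 (Q t.2) (Q (t.2 + 1)) (P (t.1 + 1)) with hGood
  -- the rows and columns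
  let ra : Fin (n + 3) → ℕ := fun i => ((univ : Finset (Fin (m + 3))).filter fun j =>
    det3 (P i) (P (i + 1)) (Q j) * det3 (P i) (P (i + 1)) (Q (j + 1)) < 0).card
  let rb : Fin (m + 3) → ℕ := fun j => ((univ : Finset (Fin (n + 3))).filter fun i =>
    det3 (Q j) (Q (j + 1)) (P i) * det3 (Q j) (Q (j + 1)) (P (i + 1)) < 0).card
  have hra : ∀ i, ra i ≤ 2 := fun i => hQ.card_sep_le_two (hP.ne_succ i)
  have hrb : ∀ j, rb j ≤ 2 := fun j => hP.card_sep_le_two (hQ.ne_succ j)
  -- pointwise identity
  have hpt : ∀ t : Fin (n + 3) × Fin (m + 3),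
      (if t ∈ Good then 1 else 0) +
        (if det3 (P t.1) (P (t.1 + 1)) (Q t.2) * det3 (P t.1) (P (t.1 + 1)) (Q (t.2 + 1)) < 0
          then 1 else 0) +
        (if det3 (Q t.2) (Q (t.2 + 1)) (P t.1) * det3 (Q t.2) (Q (t.2 + 1)) (P (t.1 + 1)) < 0
          then 1 else 0) = 1 + (if t ∈ crossSet P Q then 1 else 0) := by
    intro t
    have n1 : det3 (P t.1) (P (t.1 + 1)) (Q t.2) * det3 (P t.1) (P (t.1 + 1)) (Q (t.2 + 1)) ≠ 0 :=
      mul_ne_zero (hg.pq _ _ _ (fin_succ_ne _).symm) (hg.pq _ _ _ (fin_succ_ne _).symm)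
    have n2 : det3 (Q t.2) (Q (t.2 + 1)) (P t.1) * det3 (Q t.2) (Q (t.2 + 1)) (P (t.1 + 1)) ≠ 0 :=
      mul_ne_zero (hg.qp _ _ _ (fin_succ_ne _).symm) (hg.qp _ _ _ (fin_succ_ne _).symm)
    simp only [hGood, mem_filter, mem_univ, true_and, mem_crossSet]
    rcases lt_or_gt_of_ne n1 with h1 | h1 <;> rcases lt_or_gt_of_ne n2 with h2 | h2
    · simp [h1, h2, not_lt.2 h1.le, not_lt.2 h2.le]
    · simp [h1, h2, not_lt.2 h1.le, not_lt.2 h2.le]
    · simp [h1, h2, not_lt.2 h1.le, not_lt.2 h2.le]
    · simp [h1, h2, not_lt.2 h1.le, not_lt.2 h2.le]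
  have hsum := Finset.sum_congr (rfl : (univ : Finset (Fin (n + 3) × Fin (m + 3))) = univ)
    (fun t _ => hpt t)
  rw [Finset.sum_add_distrib, Finset.sum_add_distrib, Finset.sum_add_distrib] at hsum
  have e1 : ∑ t : Fin (n + 3) × Fin (m + 3), (if t ∈ Good then 1 else 0) = Good.card := by
    rw [Finset.card_eq_sum_ones, ← Finset.sum_filter]
    simp
  have e2 : ∑ t : Fin (n + 3) × Fin (m + 3), (if t ∈ crossSet P Q then 1 else 0) =
      (crossSet P Q).card := by
    rw [Finset.card_eq_sum_ones, ← Finset.sum_filter]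
    simp
  have e3 : ∑ t : Fin (n + 3) × Fin (m + 3),
      (if det3 (P t.1) (P (t.1 + 1)) (Q t.2) * det3 (P t.1) (P (t.1 + 1)) (Q (t.2 + 1)) < 0
        then 1 else 0) = ∑ i, ra i := by
    rw [Fintype.sum_prod_type]
    refine Finset.sum_congr rfl fun i _ => ?_
    simp only [ra]
    rw [Finset.card_filter]
  have e4 : ∑ t : Fin (n + 3) × Fin (m + 3),
      (if det3 (Q t.2) (Q (t.2 + 1)) (P t.1) * det3 (Q t.2) (Q (t.2 + 1)) (P (t.1 + 1)) < 0
        then 1 else 0) = ∑ j, rb j := by
    rw [Fintype.sum_prod_type_right]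
    refine Finset.sum_congr rfl fun j _ => ?_
    simp only [rb]
    rw [Finset.card_filter]
  have e5 : ∑ _t : Fin (n + 3) × Fin (m + 3), 1 = (n + 3) * (m + 3) := by
    simp
  rw [e1, e2, e3, e4, e5] at hsum
  -- the gains
  let fa : Fin (n + 3) → ℕ := fun i => 2 - ra i
  let fb : Fin (m + 3) → ℕ := fun j => 2 - rb j
  have hfa : ∀ i, (∀ j, 0 < det3 (P i) (P (i + 1)) (Q j)) ∨
      (∀ j, det3 (P i) (P (i + 1)) (Q j) < 0) → 2 ≤ fa i := by
    intro i hi
    have : ra i = 0 := by
      simp only [ra]
      rw [Finset.card_eq_zero, Finset.filter_eq_empty_iff]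
      intro j _
      rcases hi with hi | hi
      · exact not_lt.2 (mul_pos (hi _) (hi _)).le
      · exact not_lt.2 (mul_pos_of_neg_of_neg (hi _) (hi _)).le
    simp [fa, this]
  have hfb : ∀ j, (∀ i, 0 < det3 (Q j) (Q (j + 1)) (P i)) ∨
      (∀ i, det3 (Q j) (Q (j + 1)) (P i) < 0) → 2 ≤ fb j := by
    intro j hj
    have : rb j = 0 := by
      simp only [rb]
      rw [Finset.card_eq_zero, Finset.filter_eq_empty_iff]
      intro i _
      rcases hj with hj | hj
      · exact not_lt.2 (mul_pos (hj _) (hj _)).le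
      · exact not_lt.2 (mul_pos_of_neg_of_neg (hj _) (hj _)).le
    simp [fb, this]
  have hgain := gain hP hQ hgp fa fb hfa hfb
  have s1 : ∑ i, fa i + ∑ i, ra i = 2 * (n + 3) := by
    rw [← Finset.sum_add_distrib]
    have : ∀ i, fa i + ra i = 2 := fun i => by
      have := hra i
      simp only [fa]
      omega
    simp [this]
    ring
  have s2 : ∑ j, fb j + ∑ j, rb j = 2 * (m + 3) := by
    rw [← Finset.sum_add_distrib]
    have : ∀ j, fb j + rb j = 2 := fun j => by
      have := hrb j
      simp only [fb]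
      omega
    simp [this]
    ring
  have e6 : (n + 3) * (m + 3) = n * m + 3 * n + 3 * m + 9 := by ring
  have e7 : (n + 1) * (m + 1) = n * m + n + m + 1 := by ring
  rw [e6] at hsum
  rw [e7]
  omega

end two

end Vale.Agent.P040
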