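import Vale.Agent.Lib.P040.Chi

/-!
Two convex polygons, part A: basic facts on one polygon, exit lemma, chain lemma.
-/

namespace Vale.Agent.P040

open Finset

theorem det3_aff (p q x y : ℝ × ℝ) (a b : ℝ) (hab : a + b = 1) :
    det3 p q (a • x + b • y) = a * det3 p q x + b * det3 p q y := by
  have hb : b = 1 - a := by linarith
  subst hb
  simp only [det3, Prod.fst_add, Prod.snd_add, Prod.smul_fst, Prod.smul_snd, smul_eq_mul]
  ring

theorem det3_self1 (a b : ℝ × ℝ) : det3 a b a = 0 := by unfold det3; ring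
theorem det3_self2 (a b : ℝ × ℝ) : det3 a b b = 0 := by unfold det3; ring
theorem det3_c1 (a b c : ℝ × ℝ) : det3 b c a = det3 a b c := by unfold det3; ring
theorem det3_c2 (a b c : ℝ × ℝ) : det3 c a b = det3 a b c := by unfold det3; ring
theorem det3_s1 (a b c : ℝ × ℝ) : det3 b a c = - det3 a b c := by unfold det3; ring
theorem det3_s2 (a b c : ℝ × ℝ) : det3 a c b = - det3 a b c := by unfold det3; ring
theorem det3_s3 (a b c : ℝ × ℝ) : det3 c b a = - det3 a b c := by unfold det3; ring

/-- Convex polygon with `n+3` vertices, counterclockwise: every vertex other than the endpoints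
of a side lies strictly left of the side. -/
def IsConvexPoly {n : ℕ} (P : Fin (n + 3) → ℝ × ℝ) : Prop :=
  ∀ i j, j ≠ i → j ≠ i + 1 → 0 < det3 (P i) (P (i + 1)) (P j)

/-- A point in the closed polygon (all sides weakly left). -/
def InP {n : ℕ} (P : Fin (n + 3) → ℝ × ℝ) (z : ℝ × ℝ) : Prop :=
  ∀ i, 0 ≤ det3 (P i) (P (i + 1)) z

section one
variable {n : ℕ} {P : Fin (n + 3) → ℝ × ℝ}

theorem fin_succ_ne (i : Fin (n + 3)) : i + 1 ≠ i := by
  intro h
  have h2 : (1 : Fin (n + 3)) = 0 := by
    have := congrArg (fun x => x - i) h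
    simp at this
  have := congrArg Fin.val h2
  simp at this

theorem fin_succ2_ne (i : Fin (n + 3)) : i + 1 + 1 ≠ i := by
  intro h
  have h2 : (1 : Fin (n + 3)) + 1 = 0 := by
    have := congrArg (fun x => x - i) h
    have e : i + 1 + 1 - i = 1 + 1 := by abel
    simp only [e, sub_self] at this
    exact this
  have := congrArg Fin.val h2
  simp [Fin.val_add] at this
  rcases n with _ | n
  · simp at this
  · rw [Nat.mod_eq_of_lt (by omega)] at this
    omega

theorem IsConvexPoly.inP (hP : IsConvexPoly P) (j : Fin (n + 3)) : InP P (P j) := by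
  intro i
  by_cases h1 : j = i
  · subst h1; rw [det3_self1]
  by_cases h2 : j = i + 1
  · subst h2; rw [det3_self2]
  exact (hP i j h1 h2).le

theorem InP.of_segment {x y z : ℝ × ℝ} (hx : InP P x) (hy : InP P y) (hz : z ∈ segment ℝ x y) :
    InP P z := by
  obtain ⟨a, b, ha, hb, hab, rfl⟩ := hz
  intro i
  rw [det3_aff _ _ _ _ _ _ hab]
  have h1 := hx i
  have h2 := hy i
  positivity

theorem IsConvexPoly.ne_succ (hP : IsConvexPoly P) (i : Fin (n + 3)) : P i ≠ P (i + 1) := by
  intro h
  have h1 := hP i (i + 1 + 1) (fin_succ2_ne i) (fin_succ_ne (i + 1))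
  rw [← h] at h1
  simp [det3] at h1

/-- A point on the line of side `i` inside the closed polygon is on the side. -/
theorem IsConvexPoly.mem_side (hP : IsConvexPoly P) {e : ℝ × ℝ} (he : InP P e) {i : Fin (n + 3)}
    (h0 : det3 (P i) (P (i + 1)) e = 0) : e ∈ segment ℝ (P i) (P (i + 1)) := by
  set a := P i with ha
  set b := P (i + 1) with hb
  have hne : a ≠ b := hP.ne_succ i
  have hi : i - 1 + 1 = i := sub_add_cancel i 1
  set c := P (i + 1 + 1) with hc
  set c' := P (i - 1) with hc'
  have h1 : 0 ≤ det3 b c e := he (i + 1)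
  have h2 : 0 ≤ det3 c' a e := by
    have := he (i - 1)
    rw [hi] at this
    exact this
  have hc1 : 0 < det3 a b c := hP i (i + 1 + 1) (fin_succ2_ne i) (fin_succ_ne (i + 1))
  have hc2 : 0 < det3 a b c' := by
    refine hP i (i - 1) ?_ ?_
    · intro h
      have h3 : i = i + 1 := by
        conv_lhs => rw [← hi]
        rw [h]
      exact fin_succ_ne i h3.symm
    · intro h
      have h3 : i + 1 + 1 = i := by
        rw [← h, hi]
      exact fin_succ2_ne i h3
  have hd : (b.1 - a.1) * (b.1 - a.1) + (b.2 - a.2) * (b.2 - a.2) ≠ 0 := by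
    intro h
    apply hne
    have h3 : b.1 - a.1 = 0 := by nlinarith [mul_self_nonneg (b.1 - a.1), mul_self_nonneg (b.2 - a.2)]
    have h4 : b.2 - a.2 = 0 := by nlinarith [mul_self_nonneg (b.1 - a.1), mul_self_nonneg (b.2 - a.2)]
    exact Prod.ext (by linarith) (by linarith)
  set s := b.1 - a.1 with hs
  set t := b.2 - a.2 with ht
  set dd0 := s * s + t * t with hdd0
  set μ := ((e.1 - a.1) * s + (e.2 - a.2) * t) / dd0 with hμ
  have h00 : s * (e.2 - a.2) - t * (e.1 - a.1) = 0 := by
    have := h0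
    unfold det3 at this
    simpa [hs, ht] using this
  have he1 : e.1 = a.1 + μ * s := by
    rw [hμ]
    field_simp
    have : (e.1 - a.1) * dd0 = ((e.1 - a.1) * s + (e.2 - a.2) * t) * s := by
      rw [hdd0]
      linear_combination (-t) * h00
    linear_combination this
  have he2 : e.2 = a.2 + μ * t := by
    rw [hμ]
    field_simp
    have : (e.2 - a.2) * dd0 = ((e.1 - a.1) * s + (e.2 - a.2) * t) * t := by
      rw [hdd0]
      linear_combination s * h00
    linear_combination this
  have hb1 : b.1 = a.1 + s := by rw [hs]; ring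
  have hb2 : b.2 = a.2 + t := by rw [ht]; ring
  have e1 : det3 b c e = (1 - μ) * det3 a b c := by
    unfold det3
    rw [he1, he2, hb1, hb2]
    ring
  have e2 : det3 c' a e = μ * det3 a b c' := by
    unfold det3
    rw [he1, he2, hb1, hb2]
    ring
  rw [e1] at h1
  rw [e2] at h2
  have hμ1 : 0 ≤ 1 - μ := by
    by_contra hcon
    push Not at hcon
    nlinarith
  have hμ0 : 0 ≤ μ := by
    by_contra hcon
    push Not at hcon
    nlinarith
  refine ⟨1 - μ, μ, hμ1, hμ0, by ring, ?_⟩
  apply Prod.ext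
  · simp only [Prod.fst_add, Prod.smul_fst, smul_eq_mul]
    rw [he1, hb1]; ring
  · simp only [Prod.snd_add, Prod.smul_snd, smul_eq_mul]
    rw [he2, hb2]; ring

/-- Exit lemma: from a point in the closed polygon towards an outside point, the segment leaves
through a side. -/
theorem IsConvexPoly.exit (hP : IsConvexPoly P) {z y : ℝ × ℝ} (hz : InP P z)
    (hy : ∃ i, det3 (P i) (P (i + 1)) y < 0) :
    ∃ i, det3 (P i) (P (i + 1)) y < 0 ∧ ∃ e, e ∈ segment ℝ z y ∧
      e ∈ segment ℝ (P i) (P (i + 1)) := by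
  classical
  set D : Fin (n + 3) → ℝ × ℝ → ℝ := fun i w => det3 (P i) (P (i + 1)) w with hD
  set S := (univ : Finset (Fin (n + 3))).filter (fun i => D i y < 0) with hS
  have hne : S.Nonempty := by
    obtain ⟨i, hi⟩ := hy
    exact ⟨i, by simpa [hS, hD] using hi⟩
  obtain ⟨i, hiS, hmin⟩ := S.exists_min_image (fun i => D i z / (D i z - D i y)) hne
  have hi : D i y < 0 := by simpa [hS] using hiS
  refine ⟨i, hi, ?_⟩
  have hzi : 0 ≤ D i z := hz i
  have hden : 0 < D i z - D i y := by linarith
  set τ := D i z / (D i z - D i y) with hτ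
  have hτ0 : 0 ≤ τ := div_nonneg hzi hden.le
  have hτ1 : τ ≤ 1 := by
    rw [hτ, div_le_one hden]; linarith
  set e : ℝ × ℝ := (1 - τ) • z + τ • y with he
  have heseg : e ∈ segment ℝ z y := ⟨1 - τ, τ, by linarith, hτ0, by ring, rfl⟩
  have hDe : ∀ k, D k e = (1 - τ) * D k z + τ * D k y := by
    intro k
    simp only [hD, he]
    exact det3_aff _ _ _ _ _ _ (by ring)
  have hin : InP P e := by
    intro k
    change 0 ≤ D k e
    rw [hDe]
    have hzk : 0 ≤ D k z := hz k
    by_cases hk : D k y < 0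
    · have hkS : k ∈ S := by simp [hS, hk]
      have h1 := hmin k hkS
      have hdk : 0 < D k z - D k y := by linarith
      have h2 : τ * (D k z - D k y) ≤ D k z := by
        have := (le_div_iff₀ hdk).1 h1
        exact this
      nlinarith
    · push Not at hk
      have : 0 ≤ 1 - τ := by linarith
      positivity
  have hzero : D i e = 0 := by
    rw [hDe, hτ]
    field_simp
    ring
  exact ⟨e, heseg, hP.mem_side hin hzero⟩

/-- Crossing of the directed edge `x → y` with side `i`: `y` is beyond the side, `x` is not,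
and the line `x y` separates the endpoints of the side. -/
def EdgeCross (P : Fin (n + 3) → ℝ × ℝ) (i : Fin (n + 3)) (x y : ℝ × ℝ) : Prop :=
  det3 (P i) (P (i + 1)) y < 0 ∧ 0 < det3 (P i) (P (i + 1)) x ∧
    det3 x y (P i) * det3 x y (P (i + 1)) < 0

theorem edge_cross (hP : IsConvexPoly P) {x y z : ℝ × ℝ} (g1 : ∀ i, det3 x y (P i) ≠ 0)
    (g2 : ∀ i, det3 (P i) (P (i + 1)) x ≠ 0) (hz : z ∈ segment ℝ x y) (hin : InP P z)
    (hy : ∃ i, det3 (P i) (P (i + 1)) y < 0) : ∃ i, EdgeCross P i x y := by
  obtain ⟨i, hi, e, he1, he2⟩ := hP.exit hin hy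
  refine ⟨i, hi, ?_, ?_⟩
  · obtain ⟨a, b, ha, hb, hab, rfl⟩ := hz
    have h1 := hin i
    rw [det3_aff _ _ _ _ _ _ hab] at h1
    have hge : 0 ≤ det3 (P i) (P (i + 1)) x := by
      by_contra hcon
      push Not at hcon
      have : a = 0 ∨ 0 < a := by
        rcases ha.eq_or_lt with h | h
        · exact Or.inl h.symm
        · exact Or.inr h
      rcases this with h | h
      · have hb1 : b = 1 := by linarith
        rw [h, hb1] at h1
        linarith
      · nlinarith
    exact lt_of_le_of_ne hge (g2 i).symm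
  · -- the point e is on the line x y
    have hzl : det3 x y z = 0 := by
      obtain ⟨a, b, ha, hb, hab, rfl⟩ := hz
      rw [det3_aff _ _ _ _ _ _ hab, det3_self1, det3_self2]
      ring
    have hel : det3 x y e = 0 := by
      obtain ⟨a, b, ha, hb, hab, rfl⟩ := he1
      rw [det3_aff _ _ _ _ _ _ hab, hzl, det3_self2]
      ring
    obtain ⟨a, b, ha, hb, hab, rfl⟩ := he2
    rw [det3_aff _ _ _ _ _ _ hab] at hel
    have d1 := g1 i
    have d2 := g1 (i + 1)
    set u := det3 x y (P i)
    set v := det3 x y (P (i + 1))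
    rcases lt_or_gt_of_ne d1 with h1 | h1 <;> rcases lt_or_gt_of_ne d2 with h2 | h2
    · exfalso
      have t1 : a * u ≤ 0 := mul_nonpos_of_nonneg_of_nonpos ha h1.le
      have t2 : b * v ≤ 0 := mul_nonpos_of_nonneg_of_nonpos hb h2.le
      have t3 : a * u = 0 := by linarith
      have t4 : b * v = 0 := by linarith
      have t5 : a = 0 := by
        rcases mul_eq_zero.1 t3 with h | h
        · exact h
        · exact absurd h h1.ne
      have t6 : b = 0 := by
        rcases mul_eq_zero.1 t4 with h | h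
        · exact h
        · exact absurd h h2.ne
      rw [t5, t6] at hab
      norm_num at hab
    · exact mul_neg_of_neg_of_pos h1 h2
    · exact mul_neg_of_pos_of_neg h1 h2
    · exfalso
      have t1 : 0 ≤ a * u := mul_nonneg ha h1.le
      have t2 : 0 ≤ b * v := mul_nonneg hb h2.le
      have t3 : a * u = 0 := by linarith
      have t4 : b * v = 0 := by linarith
      have t5 : a = 0 := by
        rcases mul_eq_zero.1 t3 with h | h
        · exact h
        · exact absurd h h1.ne'
      have t6 : b = 0 := by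
        rcases mul_eq_zero.1 t4 with h | h
        · exact h
        · exact absurd h h2.ne'
      rw [t5, t6] at hab
      norm_num at hab

/-- Forward walk along a path. -/
theorem chain_fwd (hP : IsConvexPoly P) (y : ℕ → ℝ × ℝ)
    (g1 : ∀ k i, det3 (y k) (y (k + 1)) (P i) ≠ 0) (g2 : ∀ k i, det3 (P i) (P (i + 1)) (y k) ≠ 0)
    {l : ℕ} (hl : ∃ i, det3 (P i) (P (i + 1)) (y l) < 0) :
    ∀ (d k : ℕ) (e : ℝ × ℝ), l = k + 1 + d → e ∈ segment ℝ (y k) (y (k + 1)) → InP P e →
      ∃ k1 i, k ≤ k1 ∧ k1 < l ∧ EdgeCross P i (y k1) (y (k1 + 1)) := by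
  intro d
  induction d with
  | zero =>
    intro k e hk he hin
    have hk' : l = k + 1 := by omega
    subst hk'
    obtain ⟨i, hi⟩ := edge_cross hP (g1 k) (g2 k) he hin hl
    exact ⟨k, i, le_rfl, by omega, hi⟩
  | succ d ih =>
    intro k e hk he hin
    by_cases hout : ∃ i, det3 (P i) (P (i + 1)) (y (k + 1)) < 0
    · obtain ⟨i, hi⟩ := edge_cross hP (g1 k) (g2 k) he hin hout
      exact ⟨k, i, le_rfl, by omega, hi⟩
    · have hin' : InP P (y (k + 1)) := by
        intro i
        by_contra hcon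
        exact hout ⟨i, not_le.1 hcon⟩
      obtain ⟨k1, i, h1, h2, h3⟩ := ih (k + 1) (y (k + 1)) (by omega) (left_mem_segment ℝ _ _) hin'
      exact ⟨k1, i, by omega, h2, h3⟩

/-- Backward walk along a path. -/
theorem chain_bwd (hP : IsConvexPoly P) (y : ℕ → ℝ × ℝ)
    (g1 : ∀ k i, det3 (y (k + 1)) (y k) (P i) ≠ 0) (g2 : ∀ k i, det3 (P i) (P (i + 1)) (y k) ≠ 0)
    (h0 : ∃ i, det3 (P i) (P (i + 1)) (y 0) < 0) :
    ∀ (k : ℕ) (e : ℝ × ℝ), e ∈ segment ℝ (y k) (y (k + 1)) → InP P e →
      ∃ k2 i, k2 ≤ k ∧ EdgeCross P i (y (k2 + 1)) (y k2) := by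
  intro k
  induction k with
  | zero =>
    intro e he hin
    rw [segment_symm] at he
    obtain ⟨i, hi⟩ := edge_cross hP (g1 0) (g2 _) he hin h0
    exact ⟨0, i, le_rfl, hi⟩
  | succ k ih =>
    intro e he hin
    by_cases hout : ∃ i, det3 (P i) (P (i + 1)) (y (k + 1)) < 0
    · rw [segment_symm] at he
      obtain ⟨i, hi⟩ := edge_cross hP (g1 _) (g2 _) he hin hout
      exact ⟨k + 1, i, le_rfl, hi⟩
    · have hin' : InP P (y (k + 1)) := by
        intro i
        by_contra hcon
        exact hout ⟨i, not_le.1 hcon⟩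
      obtain ⟨k2, i, h1, h3⟩ := ih (y (k + 1)) (right_mem_segment ℝ _ _) hin'
      exact ⟨k2, i, by omega, h3⟩

theorem exists_line_param {a b e : ℝ × ℝ} (hne : a ≠ b) (h0 : det3 a b e = 0) :
    ∃ μ : ℝ, e = (1 - μ) • a + μ • b := by
  have hd : (b.1 - a.1) * (b.1 - a.1) + (b.2 - a.2) * (b.2 - a.2) ≠ 0 := by
    intro h
    apply hne
    have h3 : b.1 - a.1 = 0 := by nlinarith [mul_self_nonneg (b.1 - a.1), mul_self_nonneg (b.2 - a.2)]
    have h4 : b.2 - a.2 = 0 := by nlinarith [mul_self_nonneg (b.1 - a.1), mul_self_nonneg (b.2 - a.2)]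
    exact Prod.ext (by linarith) (by linarith)
  set s := b.1 - a.1 with hs
  set t := b.2 - a.2 with ht
  set dd0 := s * s + t * t with hdd0
  set μ := ((e.1 - a.1) * s + (e.2 - a.2) * t) / dd0 with hμ
  have h00 : s * (e.2 - a.2) - t * (e.1 - a.1) = 0 := by
    have := h0
    unfold det3 at this
    simpa [hs, ht] using this
  have he1 : e.1 = a.1 + μ * s := by
    rw [hμ]
    field_simp
    have : (e.1 - a.1) * dd0 = ((e.1 - a.1) * s + (e.2 - a.2) * t) * s := by
      rw [hdd0]
      linear_combination (-t) * h00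
    linear_combination this
  have he2 : e.2 = a.2 + μ * t := by
    rw [hμ]
    field_simp
    have : (e.2 - a.2) * dd0 = ((e.1 - a.1) * s + (e.2 - a.2) * t) * t := by
      rw [hdd0]
      linear_combination s * h00
    linear_combination this
  refine ⟨μ, ?_⟩
  apply Prod.ext
  · simp only [Prod.fst_add, Prod.smul_fst, smul_eq_mul]
    rw [he1, hs]; ring
  · simp only [Prod.snd_add, Prod.smul_snd, smul_eq_mul]
    rw [he2, ht]; ring

theorem three_real {u1 v1 u2 v2 u3 v3 s1 s2 s3 : ℝ}
    (h11 : u1 + v1 * s1 = 0) (h12 : 0 < u1 + v1 * s2) (h13 : 0 < u1 + v1 * s3)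
    (h22 : u2 + v2 * s2 = 0) (h21 : 0 < u2 + v2 * s1) (h23 : 0 < u2 + v2 * s3)
    (h33 : u3 + v3 * s3 = 0) (h31 : 0 < u3 + v3 * s1) (h32 : 0 < u3 + v3 * s2) : False := by
  have a1 : u1 = - (v1 * s1) := by linarith
  have a2 : u2 = - (v2 * s2) := by linarith
  have a3 : u3 = - (v3 * s3) := by linarith
  subst a1 a2 a3
  have p1 : 0 < v1 * (s2 - s1) := by linarith
  have p2 : 0 < v1 * (s3 - s1) := by linarith
  have q1 : 0 < v2 * (s1 - s2) := by linarith
  have q2 : 0 < v2 * (s3 - s2) := by linarith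
  have r1 : 0 < v3 * (s1 - s3) := by linarith
  have r2 : 0 < v3 * (s2 - s3) := by linarith
  have P1 : 0 < (s2 - s1) * (s3 - s1) := by
    have := mul_pos p1 p2
    by_contra hcon
    push Not at hcon
    nlinarith [mul_self_nonneg v1]
  have P2 : 0 < (s1 - s2) * (s3 - s2) := by
    have := mul_pos q1 q2
    by_contra hcon
    push Not at hcon
    nlinarith [mul_self_nonneg v2]
  have P3 : 0 < (s1 - s3) * (s2 - s3) := by
    have := mul_pos r1 r2
    by_contra hcon
    push Not at hcon
    nlinarith [mul_self_nonneg v3]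
  set a := s2 - s1 with ha
  set b := s3 - s2 with hb
  have e1 : (s2 - s1) * (s3 - s1) = a * (a + b) := by rw [ha, hb]; ring
  have e2 : (s1 - s2) * (s3 - s2) = - (a * b) := by rw [ha, hb]; ring
  have e3 : (s1 - s3) * (s2 - s3) = (a + b) * b := by rw [ha, hb]; ring
  rw [e1] at P1
  rw [e2] at P2
  rw [e3] at P3
  have h5 := mul_pos P1 P3
  have h6 : a * (a + b) * ((a + b) * b) = (a * b) * ((a + b) * (a + b)) := by ring
  rw [h6] at h5
  nlinarith [mul_self_nonneg (a + b)]

/-- A line crosses at most two sides of a convex polygon. -/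
theorem IsConvexPoly.card_sep_le_two (hP : IsConvexPoly P) {A B : ℝ × ℝ} (hAB : A ≠ B) :
    ((univ : Finset (Fin (n + 3))).filter
      (fun i => det3 A B (P i) * det3 A B (P (i + 1)) < 0)).card ≤ 2 := by
  classical
  by_contra hcon
  push Not at hcon
  obtain ⟨a, ha, b, hb, c, hc, hab, hac, hbc⟩ := Finset.two_lt_card.1 hcon
  simp only [mem_filter, mem_univ, true_and] at ha hb hc
  -- the crossing point of a side
  have key : ∀ a, det3 A B (P a) * det3 A B (P (a + 1)) < 0 →
      ∃ s : ℝ, (∀ b, b ≠ a → 0 < det3 (P b) (P (b + 1)) ((1 - s) • A + s • B)) ∧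
        det3 (P a) (P (a + 1)) ((1 - s) • A + s • B) = 0 := by
    intro a ha
    set h1 := det3 A B (P a) with hh1
    set h2 := det3 A B (P (a + 1)) with hh2
    have hden : h1 - h2 ≠ 0 := by
      intro h
      have : h1 = h2 := by linarith
      rw [this] at ha
      nlinarith [mul_self_nonneg h2]
    set t := h1 / (h1 - h2) with ht
    have ht0 : 0 < t ∧ t < 1 := by
      have hneg : (h1 < 0 ∧ 0 < h2) ∨ (0 < h1 ∧ h2 < 0) := by
        rcases lt_trichotomy h1 0 with h | h | h
        · left
          refine ⟨h, ?_⟩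
          by_contra hc
          push Not at hc
          nlinarith
        · rw [h] at ha; simp at ha
        · right
          refine ⟨h, ?_⟩
          by_contra hc
          push Not at hc
          nlinarith
      rcases hneg with ⟨h3, h4⟩ | ⟨h3, h4⟩
      · have hd : h1 - h2 < 0 := by linarith
        constructor
        · exact div_pos_of_neg_of_neg h3 hd
        · rw [ht, div_lt_one_of_neg hd]; linarith
      · have hd : 0 < h1 - h2 := by linarith
        constructor
        · exact div_pos h3 hd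
        · rw [ht, div_lt_one hd]; linarith
    set x : ℝ × ℝ := (1 - t) • P a + t • P (a + 1) with hx
    have hxl : det3 A B x = 0 := by
      rw [hx, det3_aff _ _ _ _ _ _ (by ring), ← hh1, ← hh2, ht]
      field_simp
      ring
    obtain ⟨s, hs⟩ := exists_line_param hAB hxl
    refine ⟨s, ?_, ?_⟩
    · intro b hb
      rw [← hs, hx, det3_aff _ _ _ _ _ _ (by ring)]
      have n1 : 0 ≤ det3 (P b) (P (b + 1)) (P a) := hP.inP a b
      have n2 : 0 ≤ det3 (P b) (P (b + 1)) (P (a + 1)) := hP.inP (a + 1) b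
      have t1 : 0 < 1 - t := by linarith [ht0.2]
      have t0 := ht0.1
      by_cases hab1 : a = b + 1
      · have pos2 : 0 < det3 (P b) (P (b + 1)) (P (a + 1)) := by
          refine hP b (a + 1) ?_ ?_
          · rw [hab1]; exact fin_succ2_ne b
          · intro h
            exact hb (add_right_cancel h).symm
        have := mul_pos t0 pos2
        have := mul_nonneg t1.le n1
        linarith
      · have pos1 : 0 < det3 (P b) (P (b + 1)) (P a) := by
          refine hP b a ?_ hab1
          exact fun h => hb h.symm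
        have := mul_pos t1 pos1
        have := mul_nonneg t0.le n2
        linarith
    · rw [← hs, hx, det3_aff _ _ _ _ _ _ (by ring), det3_self1, det3_self2]
      ring
  obtain ⟨s1, a1, a2⟩ := key a ha
  obtain ⟨s2, b1, b2⟩ := key b hb
  obtain ⟨s3, c1, c2⟩ := key c hc
  have aff : ∀ i (s : ℝ), det3 (P i) (P (i + 1)) ((1 - s) • A + s • B) =
      det3 (P i) (P (i + 1)) A + (det3 (P i) (P (i + 1)) B - det3 (P i) (P (i + 1)) A) * s := by
    intro i s
    rw [det3_aff _ _ _ _ _ _ (by ring)]
    ring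
  rw [aff] at a2 b2 c2
  have a3 := b1 a hab
  have a4 := c1 a hac
  have b3 := a1 b hab.symm
  have b4 := c1 b hbc
  have c3 := a1 c hac.symm
  have c4 := b1 c hbc.symm
  rw [aff] at a3 a4 b3 b4 c3 c4
  exact three_real a2 a3 a4 b2 b3 b4 c2 c3 c4

end one

end Vale.Agent.P040
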