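import Vale.Agent.Lib.P040.TwoPolyA

/-!
Two convex polygons, part B: hull walk.
-/

namespace Vale.Agent.P040

open Finset

section hull
variable {ι : Type*} [Fintype ι] [DecidableEq ι] {Z : ι → ℝ × ℝ}

/-- `x → y` is an edge of the convex hull: all other points strictly left. -/
def HE (Z : ι → ℝ × ℝ) (x y : ι) : Prop :=
  x ≠ y ∧ ∀ z, z ≠ x → z ≠ y → 0 < det3 (Z x) (Z y) (Z z)

theorem HE.next (hgp : NoThreeCollinear Z) {x y : ι} (h : HE Z x y) {t : ι} (htx : t ≠ x)
    (hty : t ≠ y) : ∃ z, z ≠ x ∧ z ≠ y ∧ HE Z y z := by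
  classical
  obtain ⟨hxy, hall⟩ := h
  set S := (univ : Finset ι).filter (fun w => w ≠ x ∧ w ≠ y) with hS
  have hne : S.Nonempty := ⟨t, by simp [hS, htx, hty]⟩
  let f : ι → ℝ := fun w =>
    (((Z w).1 - (Z y).1) * ((Z x).1 - (Z y).1) + ((Z w).2 - (Z y).2) * ((Z x).2 - (Z y).2)) /
      det3 (Z x) (Z y) (Z w)
  obtain ⟨z, hzS, hmin⟩ := S.exists_min_image f hne
  have hz : z ≠ x ∧ z ≠ y := by simpa [hS] using hzS
  refine ⟨z, hz.1, hz.2, hz.2.symm, ?_⟩
  intro w hwy hwz
  by_cases hwx : w = x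
  · subst hwx
    have := hall z hz.1 hz.2
    rw [det3_c1]
    exact this
  · have hwS : w ∈ S := by simp [hS, hwx, hwy]
    have h1 := hmin w hwS
    have hA := hall z hz.1 hz.2
    have hB := hall w hwx hwy
    simp only [f] at h1
    rw [div_le_div_iff₀ hA hB] at h1
    have hne0 : det3 (Z y) (Z z) (Z w) ≠ 0 := hgp y z w hz.2.symm (Ne.symm hwz) (Ne.symm hwy)
    have hsq : 0 < ((Z x).1 - (Z y).1) * ((Z x).1 - (Z y).1) +
        ((Z x).2 - (Z y).2) * ((Z x).2 - (Z y).2) := by
      by_contra hcon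
      push Not at hcon
      have e1 : (Z x).1 - (Z y).1 = 0 := by
        nlinarith [mul_self_nonneg ((Z x).1 - (Z y).1), mul_self_nonneg ((Z x).2 - (Z y).2)]
      have e2 : (Z x).2 - (Z y).2 = 0 := by
        nlinarith [mul_self_nonneg ((Z x).1 - (Z y).1), mul_self_nonneg ((Z x).2 - (Z y).2)]
      have : det3 (Z x) (Z y) (Z z) = 0 := by
        unfold det3
        have e3 : (Z y).1 - (Z x).1 = 0 := by linarith
        have e4 : (Z y).2 - (Z x).2 = 0 := by linarith
        rw [e3, e4]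
        ring
      linarith
    have hid : det3 (Z y) (Z z) (Z w) * (((Z x).1 - (Z y).1) * ((Z x).1 - (Z y).1) +
        ((Z x).2 - (Z y).2) * ((Z x).2 - (Z y).2)) =
        (((Z w).1 - (Z y).1) * ((Z x).1 - (Z y).1) + ((Z w).2 - (Z y).2) * ((Z x).2 - (Z y).2)) *
          det3 (Z x) (Z y) (Z z) -
        (((Z z).1 - (Z y).1) * ((Z x).1 - (Z y).1) + ((Z z).2 - (Z y).2) * ((Z x).2 - (Z y).2)) *
          det3 (Z x) (Z y) (Z w) := by
      unfold det3
      ring
    have hnn : 0 ≤ det3 (Z y) (Z z) (Z w) := by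
      by_contra hcon
      push Not at hcon
      have := mul_neg_of_neg_of_pos hcon hsq
      linarith
    exact lt_of_le_of_ne hnn hne0.symm

theorem HE.start (hgp : NoThreeCollinear Z) (a : ι) (hthree : ∀ u v : ι, ∃ w, w ≠ u ∧ w ≠ v) :
    ∃ x y, HE Z x y := by
  classical
  obtain ⟨y, -, hmin⟩ := (univ : Finset ι).exists_min_image (fun w => (Z w).2) ⟨a, mem_univ a⟩
  by_cases htie : ∃ y2, y2 ≠ y ∧ (Z y2).2 = (Z y).2
  · obtain ⟨y2, hne, heq⟩ := htie
    -- other points are strictly above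
    have hab' : ∀ w, w ≠ y → w ≠ y2 → (Z y).2 < (Z w).2 := by
      intro w hwy hwy2
      have h1 : (Z y).2 ≤ (Z w).2 := hmin w (mem_univ w)
      have h2 := hgp y y2 w (Ne.symm hne) (Ne.symm hwy2) (Ne.symm hwy)
      unfold det3 at h2
      rcases h1.eq_or_lt with h | h
      · exfalso
        apply h2
        rw [heq, ← h]
        ring
      · exact h
    by_cases hx : (Z y).1 < (Z y2).1
    · refine ⟨y, y2, Ne.symm hne, ?_⟩
      intro w hwy hwy2
      have h1 := hab' w hwy hwy2
      unfold det3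
      rw [heq]
      have : 0 < ((Z y2).1 - (Z y).1) * ((Z w).2 - (Z y).2) :=
        mul_pos (by linarith) (by linarith)
      linarith
    · have hx' : (Z y2).1 < (Z y).1 := by
        -- equal abscissae would make the points coincide
        rcases lt_or_eq_of_le (not_lt.1 hx) with h | h
        · exact h
        · exfalso
          obtain ⟨w, hw1, hw2⟩ := hthree y y2
          exact absurd (by unfold det3; rw [heq, h]; ring) (hgp y y2 w (Ne.symm hne) (Ne.symm hw2) (Ne.symm hw1))
      refine ⟨y2, y, hne, ?_⟩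
      intro w hwy2 hwy
      have h1 := hab' w hwy hwy2
      unfold det3
      rw [heq]
      have : 0 < ((Z y).1 - (Z y2).1) * ((Z w).2 - (Z y).2) :=
        mul_pos (by linarith) (by linarith)
      linarith
  · push Not at htie
    have hpos : ∀ w, w ≠ y → 0 < (Z w).2 - (Z y).2 := by
      intro w hw
      have h1 : (Z y).2 ≤ (Z w).2 := hmin w (mem_univ w)
      have h2 := htie w hw
      have : (Z y).2 < (Z w).2 := lt_of_le_of_ne h1 (Ne.symm h2)
      linarith
    set S := (univ : Finset ι).filter (fun w => w ≠ y) with hS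
    have hne : S.Nonempty := by
      obtain ⟨w, hw, -⟩ := hthree y y
      exact ⟨w, by simp [hS, hw]⟩
    obtain ⟨z, hzS, hmax⟩ := S.exists_max_image
      (fun w => ((Z w).1 - (Z y).1) / ((Z w).2 - (Z y).2)) hne
    have hzy : z ≠ y := by simpa [hS] using hzS
    refine ⟨y, z, hzy.symm, ?_⟩
    intro w hwy hwz
    have hwS : w ∈ S := by simp [hS, hwy]
    have h1 := hmax w hwS
    rw [div_le_div_iff₀ (hpos w hwy) (hpos z hzy)] at h1
    have hne0 := hgp y z w hzy.symm (Ne.symm hwz) (Ne.symm hwy)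
    have hnn : 0 ≤ det3 (Z y) (Z z) (Z w) := by
      unfold det3
      linarith
    exact lt_of_le_of_ne hnn hne0.symm

end hull

end Vale.Agent.P040
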