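import Vale.Agent.Lib.P040.TwoPolyB

/-!
Two convex polygons, part C: boundary crossings.
-/

namespace Vale.Agent.P040

open Finset

section idx
variable {m : ℕ}

/-- Walking along the cycle `Fin (m+3)`. -/
def idx (j0 : Fin (m + 3)) : ℕ → Fin (m + 3)
  | 0 => j0
  | k + 1 => idx j0 k + 1

theorem idx_val (j0 : Fin (m + 3)) (k : ℕ) : (idx j0 k).val = (j0.val + k) % (m + 3) := by
  induction k with
  | zero => simp [idx, Nat.mod_eq_of_lt j0.isLt]
  | succ k ih =>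
    simp only [idx, Fin.val_add, ih]
    have h1 : ((1 : Fin (m + 3)) : ℕ) = 1 := by simp
    rw [h1, Nat.mod_add_mod, Nat.add_assoc]

theorem idx_inj (j0 : Fin (m + 3)) {k k' : ℕ} (hk : k < m + 3) (hk' : k' < m + 3)
    (h : idx j0 k = idx j0 k') : k = k' := by
  have h1 := congrArg Fin.val h
  rw [idx_val, idx_val] at h1
  have h2 := j0.isLt
  by_contra hne
  rcases Nat.lt_or_gt_of_ne hne with h3 | h3
  · have := (Nat.modEq_iff_dvd' (by omega)).1 (show (j0.val + k) ≡ (j0.val + k') [MOD (m + 3)] from h1)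
    obtain ⟨c, hc⟩ := this
    have e : j0.val + k' - (j0.val + k) = k' - k := by omega
    rw [e] at hc
    have : 0 < k' - k := by omega
    rcases c with _ | c
    · omega
    · have : (m + 3) * (c + 1) ≥ m + 3 := Nat.le_mul_of_pos_right _ (by omega)
      omega
  · have := (Nat.modEq_iff_dvd' (by omega)).1 (show (j0.val + k') ≡ (j0.val + k) [MOD (m + 3)] from h1.symm)
    obtain ⟨c, hc⟩ := this
    have e : j0.val + k - (j0.val + k') = k - k' := by omega
    rw [e] at hc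
    have : 0 < k - k' := by omega
    rcases c with _ | c
    · omega
    · have : (m + 3) * (c + 1) ≥ m + 3 := Nat.le_mul_of_pos_right _ (by omega)
      omega

theorem idx_surj (j0 j : Fin (m + 3)) : ∃ k, k < m + 3 ∧ idx j0 k = j := by
  refine ⟨(j.val + (m + 3) - j0.val) % (m + 3), Nat.mod_lt _ (by omega), ?_⟩
  apply Fin.ext
  rw [idx_val]
  have h1 := j0.isLt
  have h2 := j.isLt
  have e : j0.val + (j.val + (m + 3) - j0.val) % (m + 3) ≡ j0.val + (j.val + (m + 3) - j0.val)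
      [MOD (m + 3)] := Nat.ModEq.add_left _ (Nat.mod_modEq _ _)
  have e2 : j0.val + (j.val + (m + 3) - j0.val) = j.val + (m + 3) := by omega
  rw [e2] at e
  have e3 : (j.val + (m + 3)) % (m + 3) = j.val := by
    rw [Nat.add_mod_right, Nat.mod_eq_of_lt h2]
  have e4 : (j0.val + (j.val + (m + 3) - j0.val) % (m + 3)) % (m + 3) = j.val := by
    have := e
    rw [Nat.ModEq, e3] at this
    exact this
  exact e4

theorem idx_add (j0 : Fin (m + 3)) (a b : ℕ) : idx (idx j0 a) b = idx j0 (a + b) := by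
  induction b with
  | zero => rfl
  | succ b ih =>
    have : a + (b + 1) = (a + b) + 1 := rfl
    rw [this]
    simp only [idx, ih]

theorem idx_full (j0 : Fin (m + 3)) : idx j0 (m + 3) = j0 := by
  apply Fin.ext
  rw [idx_val, Nat.add_mod_right, Nat.mod_eq_of_lt j0.isLt]

end idx

section two
variable {n m : ℕ} {P : Fin (n + 3) → ℝ × ℝ} {Q : Fin (m + 3) → ℝ × ℝ}

/-- Pairs of sides whose segments cross. -/
noncomputable def crossSet (P : Fin (n + 3) → ℝ × ℝ) (Q : Fin (m + 3) → ℝ × ℝ) :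
    Finset (Fin (n + 3) × Fin (m + 3)) := by
  classical
  exact univ.filter fun t =>
    det3 (P t.1) (P (t.1 + 1)) (Q t.2) * det3 (P t.1) (P (t.1 + 1)) (Q (t.2 + 1)) < 0 ∧
    det3 (Q t.2) (Q (t.2 + 1)) (P t.1) * det3 (Q t.2) (Q (t.2 + 1)) (P (t.1 + 1)) < 0

theorem mem_crossSet {t : Fin (n + 3) × Fin (m + 3)} : t ∈ crossSet P Q ↔
    det3 (P t.1) (P (t.1 + 1)) (Q t.2) * det3 (P t.1) (P (t.1 + 1)) (Q (t.2 + 1)) < 0 ∧
    det3 (Q t.2) (Q (t.2 + 1)) (P t.1) * det3 (Q t.2) (Q (t.2 + 1)) (P (t.1 + 1)) < 0 := by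
  unfold crossSet
  simp

theorem mem_of_fwd {i : Fin (n + 3)} {j : Fin (m + 3)} (h : EdgeCross P i (Q j) (Q (j + 1))) :
    (i, j) ∈ crossSet P Q := by
  rw [mem_crossSet]
  obtain ⟨h1, h2, h3⟩ := h
  refine ⟨?_, h3⟩
  exact mul_neg_of_pos_of_neg h2 h1

theorem mem_of_bwd {i : Fin (n + 3)} {j : Fin (m + 3)} (h : EdgeCross P i (Q (j + 1)) (Q j)) :
    (i, j) ∈ crossSet P Q := by
  rw [mem_crossSet]
  obtain ⟨h1, h2, h3⟩ := h
  refine ⟨mul_neg_of_neg_of_pos h1 h2, ?_⟩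
  simp only
  rw [det3_s1 (Q j) (Q (j + 1)) (P i), det3_s1 (Q j) (Q (j + 1)) (P (i + 1))] at h3
  linarith

/-- General position data of a pair of polygons. -/
structure GP (P : Fin (n + 3) → ℝ × ℝ) (Q : Fin (m + 3) → ℝ × ℝ) : Prop where
  pq : ∀ i i' j, i ≠ i' → det3 (P i) (P i') (Q j) ≠ 0
  qp : ∀ j j' i, j ≠ j' → det3 (Q j) (Q j') (P i) ≠ 0

theorem GP.symm (h : GP P Q) : GP Q P := ⟨h.qp, h.pq⟩

theorem gp_of_ncl (hgp : NoThreeCollinear (Sum.elim P Q)) : GP P Q := by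
  constructor
  · intro i i' j hi
    simpa using hgp (Sum.inl i) (Sum.inl i') (Sum.inr j) (by simpa using hi) (by simp) (by simp)
  · intro j j' i hj
    simpa using hgp (Sum.inr j) (Sum.inr j') (Sum.inl i) (by simpa using hj) (by simp) (by simp)

/-- Two crossing pairs on a stretch of the boundary of `Q` between two outside vertices. -/
theorem chain_two (hP : IsConvexPoly P) (hg : GP P Q) (j0 : Fin (m + 3)) {l k : ℕ}
    (hl : l ≤ m + 3) (hk : k < l)
    (h0 : ∃ i, det3 (P i) (P (i + 1)) (Q (idx j0 0)) < 0)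
    (h1 : ∃ i, det3 (P i) (P (i + 1)) (Q (idx j0 l)) < 0)
    {e : ℝ × ℝ} (he : e ∈ segment ℝ (Q (idx j0 k)) (Q (idx j0 (k + 1)))) (hin : InP P e) :
    ∃ k1 k2 i1 i2, k1 < l ∧ k2 < l ∧ (i1, idx j0 k1) ∈ crossSet P Q ∧
      (i2, idx j0 k2) ∈ crossSet P Q ∧ (i1, idx j0 k1) ≠ (i2, idx j0 k2) := by
  set y : ℕ → ℝ × ℝ := fun k => Q (idx j0 k) with hy
  have hsucc : ∀ k, y (k + 1) = Q (idx j0 k + 1) := fun k => rfl
  have g1 : ∀ k i, det3 (y k) (y (k + 1)) (P i) ≠ 0 := by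
    intro k i
    rw [hsucc]
    exact hg.qp _ _ _ (fin_succ_ne _).symm
  have g1' : ∀ k i, det3 (y (k + 1)) (y k) (P i) ≠ 0 := by
    intro k i
    rw [hsucc]
    exact hg.qp _ _ _ (fin_succ_ne _)
  have g2 : ∀ k i, det3 (P i) (P (i + 1)) (y k) ≠ 0 := by
    intro k i
    exact hg.pq _ _ _ (fin_succ_ne _).symm
  obtain ⟨d, hd⟩ : ∃ d, l = k + 1 + d := ⟨l - (k + 1), by omega⟩
  obtain ⟨k1, i1, a1, a2, a3⟩ := chain_fwd hP y g1 g2 h1 d k e hd he hin
  obtain ⟨k2, i2, b1, b3⟩ := chain_bwd hP y g1' g2 h0 k e he hin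
  refine ⟨k1, k2, i1, i2, a2, by omega, mem_of_fwd a3, mem_of_bwd b3, ?_⟩
  intro heq
  have heq1 : i1 = i2 := congrArg Prod.fst heq
  have heq2 : idx j0 k1 = idx j0 k2 := congrArg Prod.snd heq
  have heq3 : k1 = k2 := idx_inj j0 (by omega) (by omega) heq2
  subst heq1 heq3
  have c1 := a3.1
  have c2 := b3.2.1
  exact absurd c1 (not_lt.2 c2.le)

/-- A crossing pair forces a second one. -/
theorem two_of_cross (hP : IsConvexPoly P) (hg : GP P Q)
    (hne : (crossSet P Q).Nonempty) : 2 ≤ (crossSet P Q).card := by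
  obtain ⟨⟨i, j⟩, ht⟩ := hne
  rw [mem_crossSet] at ht
  obtain ⟨h1, h2⟩ := ht
  simp only at h1 h2
  obtain ⟨e, he1, he2⟩ := segments_meet _ _ _ _ h2 h1
  have hin : InP P e := InP.of_segment (hP.inP _) (hP.inP _) he2
  -- an outside vertex
  have hout : ∃ j0, det3 (P i) (P (i + 1)) (Q j0) < 0 := by
    by_contra hcon
    push Not at hcon
    have a1 := hcon j
    have a2 := hcon (j + 1)
    nlinarith [mul_nonneg a1 a2]
  obtain ⟨j0, hj0⟩ := hout
  obtain ⟨k, hk, hkj⟩ := idx_surj j0 j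
  have h0 : ∃ i, det3 (P i) (P (i + 1)) (Q (idx j0 0)) < 0 := ⟨i, hj0⟩
  have hl : ∃ i, det3 (P i) (P (i + 1)) (Q (idx j0 (m + 3))) < 0 := by
    rw [idx_full]; exact ⟨i, hj0⟩
  have he' : e ∈ segment ℝ (Q (idx j0 k)) (Q (idx j0 (k + 1))) := by
    simp only [idx, hkj]
    exact he1
  obtain ⟨k1, k2, i1, i2, -, -, a1, a2, a3⟩ := chain_two hP hg j0 le_rfl hk h0 hl he' hin
  exact Finset.one_lt_card.2 ⟨_, a1, _, a2, a3⟩

/-- If a vertex of `Q` is in `P` and no boundary crossing, then all vertices of `Q` are in `P`. -/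
theorem nested_of_empty (hP : IsConvexPoly P) (hg : GP P Q)
    (hemp : crossSet P Q = ∅) {j : Fin (m + 3)} (hj : InP P (Q j)) (j' : Fin (m + 3)) :
    InP P (Q j') := by
  by_contra hcon
  have hout : ∃ i, det3 (P i) (P (i + 1)) (Q j') < 0 := by
    by_contra h2
    push Not at h2
    exact hcon h2
  obtain ⟨k, hk, hkj⟩ := idx_surj j' j
  set y : ℕ → ℝ × ℝ := fun k => Q (idx j' k) with hy
  have hsucc : ∀ k, y (k + 1) = Q (idx j' k + 1) := fun k => rfl
  have g1' : ∀ k i, det3 (y (k + 1)) (y k) (P i) ≠ 0 := by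
    intro k i
    rw [hsucc]
    exact hg.qp _ _ _ (fin_succ_ne _)
  have g2 : ∀ k i, det3 (P i) (P (i + 1)) (y k) ≠ 0 := by
    intro k i
    exact hg.pq _ _ _ (fin_succ_ne _).symm
  have hyk : y k = Q j := by simp only [hy, hkj]
  obtain ⟨k2, i2, -, b3⟩ := chain_bwd hP y g1' g2 hout k (y k) (left_mem_segment ℝ _ _)
    (by rw [hyk]; exact hj)
  have := mem_of_bwd (P := P) (Q := Q) (i := i2) (j := idx j' k2) b3
  rw [hemp] at this
  simp at this

end two

end Vale.Agent.P040
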