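import Vale.Agent.Lib.P040.TwoPolyC

/-!
Two convex polygons, part D: alternating hull gives four crossings; the hull alternative.
-/

namespace Vale.Agent.P040

open Finset

section two
variable {n m : ℕ} {P : Fin (n + 3) → ℝ × ℝ} {Q : Fin (m + 3) → ℝ × ℝ}

/-- Discrete intermediate value theorem. -/
theorem sign_change (h : ℕ → ℝ) (hne : ∀ k, h k ≠ 0) :
    ∀ l, h 0 * h l < 0 → ∃ k, k < l ∧ h k * h (k + 1) < 0 := by
  intro l
  induction l with
  | zero =>
    intro h0
    nlinarith [mul_self_nonneg (h 0)]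
  | succ l ih =>
    intro h0
    by_cases hl : h 0 * h l < 0
    · obtain ⟨k, hk, hk2⟩ := ih hl
      exact ⟨k, by omega, hk2⟩
    · refine ⟨l, by omega, ?_⟩
      push Not at hl
      have h1 : 0 < h 0 * h l := lt_of_le_of_ne hl (mul_ne_zero (hne 0) (hne l)).symm
      by_contra hcon
      push Not at hcon
      have h2 : 0 < h l * h (l + 1) := lt_of_le_of_ne hcon (mul_ne_zero (hne l) (hne _)).symm
      have h3 := mul_pos h1 h2
      have h4 : h 0 * h l * (h l * h (l + 1)) = (h l * h l) * (h 0 * h (l + 1)) := by ring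
      rw [h4] at h3
      have h5 : 0 ≤ h l * h l := mul_self_nonneg _
      nlinarith

/-- The alternating configuration forces four boundary crossings. -/
theorem alt4 (hP : IsConvexPoly P) (hQ : IsConvexPoly Q) (hg : GP P Q)
    {a a' : Fin (n + 3)} {b b' : Fin (m + 3)} (ha : a ≠ a') (hb : b ≠ b')
    (o1 : ∃ i, det3 (P i) (P (i + 1)) (Q b) < 0) (o2 : ∃ i, det3 (P i) (P (i + 1)) (Q b') < 0)
    (o3 : ∃ j, det3 (Q j) (Q (j + 1)) (P a) < 0) (o4 : ∃ j, det3 (Q j) (Q (j + 1)) (P a') < 0)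
    (c1 : det3 (P a) (P a') (Q b) * det3 (P a) (P a') (Q b') < 0)
    (c2 : det3 (Q b) (Q b') (P a) * det3 (Q b) (Q b') (P a') < 0) :
    4 ≤ (crossSet P Q).card := by
  classical
  have hpp : P a ≠ P a' := by
    intro h
    rw [h] at c1
    simp [det3] at c1
  obtain ⟨c, hc1, hc2⟩ := segments_meet _ _ _ _ c1 c2
  have hcin : InP Q c := InP.of_segment (hQ.inP _) (hQ.inP _) hc2
  have g1 : ∀ j, det3 (P a) (P a') (Q j) ≠ 0 := fun j => hg.pq _ _ _ ha
  have g1' : ∀ j, det3 (P a') (P a) (Q j) ≠ 0 := fun j => hg.pq _ _ _ ha.symm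
  have g2 : ∀ j i, det3 (Q j) (Q (j + 1)) (P i) ≠ 0 := fun j i => hg.qp _ _ _ (fin_succ_ne _).symm
  obtain ⟨t, t1, t2, t3⟩ := edge_cross hQ g1 (fun j => g2 j a) hc1 hcin o4
  obtain ⟨t', t1', t2', t3'⟩ := edge_cross hQ g1' (fun j => g2 j a')
    (by rw [segment_symm]; exact hc1) hcin o3
  have htt' : t ≠ t' := by
    intro h
    subst h
    linarith
  set S := (univ : Finset (Fin (m + 3))).filter
    (fun j => det3 (P a) (P a') (Q j) * det3 (P a) (P a') (Q (j + 1)) < 0) with hS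
  have hcard : S.card ≤ 2 := hQ.card_sep_le_two hpp
  have htS : t ∈ S := by simp [hS, t3]
  have ht'S : t' ∈ S := by
    simp only [hS, mem_filter, mem_univ, true_and]
    rw [det3_s1 (P a) (P a') (Q t'), det3_s1 (P a) (P a') (Q (t' + 1)), neg_mul_neg] at t3'
    exact t3'
  -- every element of S is t or t'
  have hS2 : ∀ j ∈ S, j = t ∨ j = t' := by
    intro j hj
    by_contra hcon
    push Not at hcon
    have : 2 < S.card := Finset.two_lt_card.2 ⟨j, hj, t, htS, t', ht'S, hcon.1, hcon.2, htt'⟩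
    omega
  -- each element of S gives a touching point
  have htouch : ∀ j ∈ S, ∃ e, e ∈ segment ℝ (Q j) (Q (j + 1)) ∧ InP P e := by
    intro j hj
    have hj1 : det3 (P a) (P a') (Q j) * det3 (P a) (P a') (Q (j + 1)) < 0 := by
      simpa [hS] using hj
    have hj2 : det3 (Q j) (Q (j + 1)) (P a) * det3 (Q j) (Q (j + 1)) (P a') < 0 := by
      rcases hS2 j hj with h | h
      · subst h
        exact mul_neg_of_pos_of_neg t2 t1
      · subst h
        exact mul_neg_of_neg_of_pos t1' t2'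
    obtain ⟨e, he1, he2⟩ := segments_meet _ _ _ _ hj1 hj2
    exact ⟨e, he2, InP.of_segment (hP.inP _) (hP.inP _) he1⟩
  -- positions of b' from b
  obtain ⟨l, hl, hlb⟩ := idx_surj b b'
  have hl0 : l ≠ 0 := by
    intro h
    subst h
    exact hb hlb
  have hsc : ∀ j0 : Fin (m + 3), ∀ l, det3 (P a) (P a') (Q (idx j0 0)) *
      det3 (P a) (P a') (Q (idx j0 l)) < 0 →
      ∃ k, k < l ∧ idx j0 k ∈ S := by
    intro j0 l h
    obtain ⟨k, hk, hk2⟩ := sign_change (fun k => det3 (P a) (P a') (Q (idx j0 k)))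
      (fun k => g1 _) l h
    refine ⟨k, hk, ?_⟩
    simp only [hS, mem_filter, mem_univ, true_and]
    exact hk2
  obtain ⟨k1, hk1, hk1S⟩ := hsc b l (by
    simp only [idx, hlb]; exact c1)
  have hl2 : idx b' (m + 3 - l) = b := by
    rw [← hlb, idx_add]
    have : l + (m + 3 - l) = m + 3 := by omega
    rw [this, idx_full]
  obtain ⟨k2, hk2, hk2S⟩ := hsc b' (m + 3 - l) (by
    rw [hl2]
    simp only [idx]
    rw [mul_comm]; exact c1)
  -- the sides
  have hdist : ∀ k k', k < l → k' < m + 3 - l → idx b k ≠ idx b' k' := by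
    intro k k' hk hk' h
    rw [← hlb, idx_add] at h
    have := idx_inj b (by omega) (by omega) h
    omega
  obtain ⟨e1, he1, hin1⟩ := htouch _ hk1S
  obtain ⟨e2, he2, hin2⟩ := htouch _ hk2S
  have o1' : ∃ i, det3 (P i) (P (i + 1)) (Q (idx b 0)) < 0 := o1
  have o2' : ∃ i, det3 (P i) (P (i + 1)) (Q (idx b l)) < 0 := by rw [hlb]; exact o2
  have o3' : ∃ i, det3 (P i) (P (i + 1)) (Q (idx b' 0)) < 0 := o2
  have o4' : ∃ i, det3 (P i) (P (i + 1)) (Q (idx b' (m + 3 - l))) < 0 := by rw [hl2]; exact o1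
  obtain ⟨x1, x2, i1, i2, x1l, x2l, m1, m2, ne1⟩ :=
    chain_two hP hg b (l := l) (k := k1) hl.le hk1 o1' o2' he1 hin1
  obtain ⟨x3, x4, i3, i4, x3l, x4l, m3, m4, ne2⟩ :=
    chain_two hP hg b' (l := m + 3 - l) (k := k2) (by omega) hk2 o3' o4' he2 hin2
  have hsub : ({(i1, idx b x1), (i2, idx b x2), (i3, idx b' x3), (i4, idx b' x4)} :
      Finset (Fin (n + 3) × Fin (m + 3))) ⊆ crossSet P Q := by
    intro z hz
    simp only [mem_insert, mem_singleton] at hz
    rcases hz with rfl | rfl | rfl | rfl <;> assumption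
  have hcard4 : ({(i1, idx b x1), (i2, idx b x2), (i3, idx b' x3), (i4, idx b' x4)} :
      Finset (Fin (n + 3) × Fin (m + 3))).card = 4 := by
    have d13 : (i1, idx b x1) ≠ (i3, idx b' x3) := fun h =>
      hdist x1 x3 x1l x3l (congrArg Prod.snd h)
    have d14 : (i1, idx b x1) ≠ (i4, idx b' x4) := fun h =>
      hdist x1 x4 x1l x4l (congrArg Prod.snd h)
    have d23 : (i2, idx b x2) ≠ (i3, idx b' x3) := fun h =>
      hdist x2 x3 x2l x3l (congrArg Prod.snd h)
    have d24 : (i2, idx b x2) ≠ (i4, idx b' x4) := fun h =>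
      hdist x2 x4 x2l x4l (congrArg Prod.snd h)
    rw [Finset.card_insert_of_notMem, Finset.card_insert_of_notMem,
      Finset.card_insert_of_notMem, Finset.card_singleton]
    · simpa using ne2
    · simp only [mem_insert, mem_singleton, not_or]
      exact ⟨d23, d24⟩
    · simp only [mem_insert, mem_singleton, not_or]
      exact ⟨ne1, d13, d14⟩
  calc 4 = _ := hcard4.symm
    _ ≤ _ := Finset.card_le_card hsub

/-- Hull edges of the union inside one polygon are sides with the other polygon on the left. -/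
theorem he_inl (hP : IsConvexPoly P) {a b : Fin (n + 3)}
    (h : HE (Sum.elim P Q) (Sum.inl a) (Sum.inl b)) :
    ∀ j, 0 < det3 (P a) (P (a + 1)) (Q j) := by
  obtain ⟨hab, hall⟩ := h
  have hab' : a ≠ b := fun h => hab (by rw [h])
  have hb : b = a + 1 := by
    by_contra hcon
    have h1 := hall (Sum.inl (a + 1)) (by simpa using fin_succ_ne a)
      (by simpa using fun h => hcon h.symm)
    simp only [Sum.elim_inl] at h1
    have h2 := hP a b (Ne.symm hab') hcon
    rw [det3_s2] at h2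
    linarith
  subst hb
  intro j
  simpa using hall (Sum.inr j) (by simp) (by simp)

theorem he_inr (hQ : IsConvexPoly Q) {a b : Fin (m + 3)}
    (h : HE (Sum.elim P Q) (Sum.inr a) (Sum.inr b)) :
    ∀ j, 0 < det3 (Q a) (Q (a + 1)) (P j) := by
  obtain ⟨hab, hall⟩ := h
  have hab' : a ≠ b := fun h => hab (by rw [h])
  have hb : b = a + 1 := by
    by_contra hcon
    have h1 := hall (Sum.inr (a + 1)) (by simpa using fin_succ_ne a)
      (by simpa using fun h => hcon h.symm)
    simp only [Sum.elim_inr] at h1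
    have h2 := hQ a b (Ne.symm hab') hcon
    rw [det3_s2] at h2
    linarith
  subst hb
  intro j
  simpa using hall (Sum.inl j) (by simp) (by simp)

/-- Out facts: the hull edge ends at a vertex of `Q`. -/
theorem out_A {a : Fin (n + 3)} {b : Fin (m + 3)}
    (h : HE (Sum.elim P Q) (Sum.inl a) (Sum.inr b)) :
    ∃ j, det3 (Q j) (Q (j + 1)) (P a) < 0 := by
  refine ⟨b - 1, ?_⟩
  have hi : b - 1 + 1 = b := sub_add_cancel b 1
  rw [hi]
  have hne : b - 1 ≠ b := by
    intro h2
    have h3 : b = b + 1 := by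
      conv_lhs => rw [← hi]
      rw [h2]
    exact fin_succ_ne b h3.symm
  have h1 := h.2 (Sum.inr (b - 1)) (by simp) (by simpa using hne)
  simp only [Sum.elim_inl, Sum.elim_inr] at h1
  rw [det3_s3] at h1
  linarith

theorem out_B {a : Fin (n + 3)} {b : Fin (m + 3)}
    (h : HE (Sum.elim P Q) (Sum.inr b) (Sum.inl a)) :
    ∃ j, det3 (Q j) (Q (j + 1)) (P a) < 0 := by
  refine ⟨b, ?_⟩
  have h1 := h.2 (Sum.inr (b + 1)) (by simpa using fin_succ_ne b) (by simp)
  simp only [Sum.elim_inl, Sum.elim_inr] at h1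
  rw [det3_s2] at h1
  linarith

theorem out_A' {a : Fin (n + 3)} {b : Fin (m + 3)}
    (h : HE (Sum.elim P Q) (Sum.inr b) (Sum.inl a)) :
    ∃ j, det3 (P j) (P (j + 1)) (Q b) < 0 := by
  refine ⟨a - 1, ?_⟩
  have hi : a - 1 + 1 = a := sub_add_cancel a 1
  rw [hi]
  have hne : a - 1 ≠ a := by
    intro h2
    have h3 : a = a + 1 := by
      conv_lhs => rw [← hi]
      rw [h2]
    exact fin_succ_ne a h3.symm
  have h1 := h.2 (Sum.inl (a - 1)) (by simp) (by simpa using hne)
  simp only [Sum.elim_inl, Sum.elim_inr] at h1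
  rw [det3_s3] at h1
  linarith

theorem out_B' {a : Fin (n + 3)} {b : Fin (m + 3)}
    (h : HE (Sum.elim P Q) (Sum.inl a) (Sum.inr b)) :
    ∃ j, det3 (P j) (P (j + 1)) (Q b) < 0 := by
  refine ⟨a, ?_⟩
  have h1 := h.2 (Sum.inl (a + 1)) (by simpa using fin_succ_ne a) (by simp)
  simp only [Sum.elim_inl, Sum.elim_inr] at h1
  rw [det3_s2] at h1
  linarith

/-- Chords of a hull path of length three cross. -/
theorem chords_cross {ι : Type*} {Z : ι → ℝ × ℝ} {z0 z1 z2 z3 : ι}
    (h1 : HE Z z0 z1) (h2 : HE Z z1 z2) (h3 : HE Z z2 z3)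
    (n02 : z0 ≠ z2) (n03 : z0 ≠ z3) (n13 : z1 ≠ z3) :
    det3 (Z z0) (Z z2) (Z z1) * det3 (Z z0) (Z z2) (Z z3) < 0 ∧
    det3 (Z z1) (Z z3) (Z z0) * det3 (Z z1) (Z z3) (Z z2) < 0 := by
  have a1 := h1.2 z2 n02.symm h2.1.symm
  have a2 := h1.2 z3 n03.symm n13.symm
  have a3 := h2.2 z3 n13.symm h3.1.symm
  have a4 := h3.2 z0 n02 n03
  constructor
  · rw [det3_s2]
    have e : det3 (Z z0) (Z z2) (Z z3) = det3 (Z z2) (Z z3) (Z z0) := (det3_c1 _ _ _).symm
    rw [e]
    exact mul_neg_of_neg_of_pos (by linarith) a4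
  · have e : det3 (Z z1) (Z z3) (Z z0) = det3 (Z z0) (Z z1) (Z z3) := det3_c1 _ _ _
    rw [e, det3_s2 (Z z1) (Z z2) (Z z3)]
    exact mul_neg_of_pos_of_neg a2 (by linarith)

/-- The hull alternative: a side of one polygon has the other polygon on its left, or the
boundaries cross at least four times. -/
theorem hull_or_four (hP : IsConvexPoly P) (hQ : IsConvexPoly Q)
    (hgp : NoThreeCollinear (Sum.elim P Q)) :
    (∃ i, ∀ j, 0 < det3 (P i) (P (i + 1)) (Q j)) ∨ (∃ j, ∀ i, 0 < det3 (Q j) (Q (j + 1)) (P i)) ∨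
      4 ≤ (crossSet P Q).card := by
  have hg := gp_of_ncl hgp
  set Z := Sum.elim P Q with hZ
  have hthree : ∀ u v : Fin (n + 3) ⊕ Fin (m + 3), ∃ w, w ≠ u ∧ w ≠ v := by
    intro u v
    have h0 : (0 : Fin (n + 3)) ≠ 1 := by
      intro h
      have := fin_succ_ne (0 : Fin (n + 3))
      simp only [zero_add] at this
      exact this h.symm
    have h1 : (0 : Fin (n + 3)) ≠ 1 + 1 := by
      intro h
      have := fin_succ2_ne (0 : Fin (n + 3))
      simp only [zero_add] at this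
      exact this h.symm
    have h2 : (1 : Fin (n + 3)) ≠ 1 + 1 := by
      have := fin_succ_ne (1 : Fin (n + 3))
      exact fun h => this h.symm
    by_cases a0 : (Sum.inl 0 : Fin (n + 3) ⊕ Fin (m + 3)) ≠ u ∧ Sum.inl 0 ≠ v
    · exact ⟨_, a0.1, a0.2⟩
    by_cases a1 : (Sum.inl 1 : Fin (n + 3) ⊕ Fin (m + 3)) ≠ u ∧ Sum.inl 1 ≠ v
    · exact ⟨_, a1.1, a1.2⟩
    by_cases a2 : (Sum.inl (1 + 1) : Fin (n + 3) ⊕ Fin (m + 3)) ≠ u ∧ Sum.inl (1 + 1) ≠ v
    · exact ⟨_, a2.1, a2.2⟩
    exfalso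
    have e0 : Sum.inl 0 = u ∨ Sum.inl 0 = v := by
      by_contra hc; push Not at hc; exact a0 hc
    have e1 : Sum.inl 1 = u ∨ Sum.inl 1 = v := by
      by_contra hc; push Not at hc; exact a1 hc
    have e2 : Sum.inl (1 + 1) = u ∨ Sum.inl (1 + 1) = v := by
      by_contra hc; push Not at hc; exact a2 hc
    have inj : ∀ x y : Fin (n + 3), (Sum.inl x : Fin (n + 3) ⊕ Fin (m + 3)) = Sum.inl y → x = y :=
      fun x y h => Sum.inl_injective h
    rcases e0 with e0 | e0 <;> rcases e1 with e1 | e1 <;> rcases e2 with e2 | e2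
    · exact h0 (inj _ _ (e0.trans e1.symm))
    · exact h0 (inj _ _ (e0.trans e1.symm))
    · exact h1 (inj _ _ (e0.trans e2.symm))
    · exact h2 (inj _ _ (e1.trans e2.symm))
    · exact h2 (inj _ _ (e1.trans e2.symm))
    · exact h1 (inj _ _ (e0.trans e2.symm))
    · exact h0 (inj _ _ (e0.trans e1.symm))
    · exact h0 (inj _ _ (e0.trans e1.symm))
  obtain ⟨z0, z1, h01⟩ := HE.start hgp (Sum.inl 0) hthree
  obtain ⟨t, t1, t2⟩ := hthree z0 z1
  obtain ⟨z2, n20, n21, h12⟩ := h01.next hgp t1 t2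
  obtain ⟨t', t1', t2'⟩ := hthree z1 z2
  obtain ⟨z3, n31, n32, h23⟩ := h12.next hgp t1' t2'
  -- colours
  rcases z0 with a0 | b0 <;> rcases z1 with a1 | b1
  · exact Or.inl ⟨a0, he_inl hP h01⟩
  · rcases z2 with a2 | b2
    · rcases z3 with a3 | b3
      · exact Or.inl ⟨a2, he_inl hP h23⟩
      · -- inl inr inl inr
        right; right
        have hc := chords_cross h01 h12 h23 n20.symm (by simp) n31.symm
        refine alt4 hP hQ hg (a := a0) (a' := a2) (b := b1) (b' := b3) ?_ ?_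
          (out_A' h12) (out_B' h23) (out_A h01) (out_B h12) hc.1 hc.2
        · exact fun h => n20 (by rw [h])
        · exact fun h => n31 (by rw [h])
    · exact Or.inr (Or.inl ⟨b1, he_inr hQ h12⟩)
  · rcases z2 with a2 | b2
    · exact Or.inl ⟨a1, he_inl hP h12⟩
    · rcases z3 with a3 | b3
      · -- inr inl inr inl
        right; right
        have hc := chords_cross h01 h12 h23 n20.symm (by simp) n31.symm
        refine alt4 hP hQ hg (a := a1) (a' := a3) (b := b0) (b' := b2) ?_ ?_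
          (out_A' h01) (out_B' h12) (out_A h12) (out_B h23) hc.2 hc.1
        · exact fun h => n31 (by rw [h])
        · exact fun h => n20 (by rw [h])
      · exact Or.inr (Or.inl ⟨b2, he_inr hQ h23⟩)
  · exact Or.inr (Or.inl ⟨b0, he_inr hQ h01⟩)

end two

end Vale.Agent.P040
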